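import Crest.Agent.N222.J.Imm
import Crest.Agent.N222.J.CJ
import Crest.Agent.N222.F.Graph
import Crest.Agent.N222.A.SmJ
import Crest.Agent.N222.A.Gen

/-!
# Row 228, solver layer (helper41): families with jointly continuous jets

`JC A U f` : `f l` is smooth on the open set `U`, all jets are jointly continuous on `Λ × U`.
`PJ A U S` : a family of delta-calculi which preserves `JC`.  `Fm A U N` : a family of immersions.
-/

set_option autoImplicit false
set_option linter.unusedSectionVars false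
open Set Filter Topology Function
open scoped ContDiff
open Crest.Agent.N222

noncomputable section

namespace Crest.Agent.N228.J

variable {d : ℕ} {X : Type} [TopologicalSpace X] {Λ : Type} [TopologicalSpace Λ]
  {F G : Type} [NormedAddCommGroup F] [NormedSpace ℝ F] [NormedAddCommGroup G] [NormedSpace ℝ G]
  {A : J.Atl d X} {U : Set X}

/-- smooth on the open set `U`, all jets jointly continuous -/
def JC (A : J.Atl d X) (U : Set X) (f : Λ → X → F) : Prop := IsOpen U ∧ A.JC U f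

namespace JC

variable {f g : Λ → X → F} {u v : Λ → X → ℝ}

theorem isOpen (h : JC A U f) : IsOpen U := h.1

theorem op (h : JC A U f) (p : X) : IsOpen (A.tg p U) := A.isOpen_tg h.1 p

theorem smOn (h : JC A U f) (l : Λ) : A.SmOn U (f l) := h.2.smOn l

theorem continuousAt (h : JC A U f) {p : X} (hp : p ∈ U) (l : Λ) :
    ContinuousAt (fun z : Λ × X => f z.1 z.2) (l, p) := h.2.continuousAt h.1 hp l

theorem continuousOn (h : JC A U f) : ContinuousOn (fun z : Λ × X => f z.1 z.2) (univ ×ˢ U) :=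
  fun z hz => (h.continuousAt hz.2 z.1).continuousWithinAt

theorem continuous (h : JC A univ f) : Continuous fun z : Λ × X => f z.1 z.2 :=
  continuous_iff_continuousAt.2 fun z => h.continuousAt (mem_univ _) z.1

theorem mono (h : JC A U f) {U' : Set X} (hU : IsOpen U') (hs : U' ⊆ U) : JC A U' f :=
  ⟨hU, h.2.mono hs⟩

theorem reparam {Λ' : Type} [TopologicalSpace Λ'] (h : JC A U f) {e : Λ' → Λ}
    (he : Continuous e) : JC A U fun l => f (e l) := ⟨h.1, h.2.reparam he⟩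

theorem congr (h : JC A U f) (e : ∀ l, ∀ q ∈ U, g l q = f l q) : JC A U g :=
  ⟨h.1, h.2.congr h.1 e⟩

theorem of_local (hU : IsOpen U) (h : ∀ p ∈ U, ∃ V, p ∈ V ∧ JC A V f) : JC A U f :=
  ⟨hU, J.Atl.jc_of_self fun p hp => by
    obtain ⟨V, hV, H⟩ := h p hp
    exact ⟨_, H.op p, A.mem_tg_self hV, H.2 p⟩⟩

theorem consts (hU : IsOpen U) {c : Λ → F} (hc : Continuous c) : JC A U fun l _ => c l :=
  ⟨hU, fun _ => J.CJ.consts hc⟩

theorem const (hU : IsOpen U) (c : F) : JC A U fun (_ : Λ) _ => c := consts hU continuous_const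

theorem fixed (hU : IsOpen U) {w : X → F} (hw : A.SmOn U w) : JC A U fun _ : Λ => w :=
  ⟨hU, hw.jc hU⟩

theorem prodMk {w : Λ → X → G} (hf : JC A U f) (hw : JC A U w) :
    JC A U fun l p => (f l p, w l p) := ⟨hf.1, fun p => (hf.2 p).prodMk (hf.op p) (hw.2 p)⟩

theorem comp_on (hf : JC A U f) {Φ : F → G} {W : Set F} (hW : IsOpen W) (hΦ : ContDiffOn ℝ ∞ Φ W)
    (hm : ∀ l, ∀ p ∈ U, f l p ∈ W) : JC A U fun l p => Φ (f l p) :=
  ⟨hf.1, fun p => (hf.2 p).comp (hf.op p) hW hΦ fun l _ hx => hm l _ hx.2⟩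

theorem comp (hf : JC A U f) {Φ : F → G} (hΦ : ContDiff ℝ ∞ Φ) : JC A U fun l p => Φ (f l p) :=
  hf.comp_on isOpen_univ hΦ.contDiffOn fun _ _ _ => mem_univ _

theorem fst {w : Λ → X → F × G} (h : JC A U w) : JC A U fun l p => (w l p).1 := h.comp contDiff_fst

theorem snd {w : Λ → X → F × G} (h : JC A U w) : JC A U fun l p => (w l p).2 := h.comp contDiff_snd

theorem add (hf : JC A U f) (hg : JC A U g) : JC A U fun l p => f l p + g l p :=
  ⟨hf.1, fun p => (hf.2 p).add (hf.op p) (hg.2 p)⟩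

theorem sub (hf : JC A U f) (hg : JC A U g) : JC A U fun l p => f l p - g l p :=
  ⟨hf.1, fun p => (hf.2 p).sub (hf.op p) (hg.2 p)⟩

theorem neg (hf : JC A U f) : JC A U fun l p => -f l p := ⟨hf.1, fun p => (hf.2 p).neg (hf.op p)⟩

theorem smul (hu : JC A U u) (hf : JC A U f) : JC A U fun l p => u l p • f l p :=
  ⟨hf.1, fun p => (hu.2 p).smul (hf.op p) (hf.2 p)⟩

theorem mul (hu : JC A U u) (hv : JC A U v) : JC A U fun l p => u l p * v l p :=
  ⟨hu.1, fun p => (hu.2 p).mul (hu.op p) (hv.2 p)⟩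

theorem const_mul (c : ℝ) (hu : JC A U u) : JC A U fun l p => c * u l p :=
  (const hu.1 c).mul hu

theorem pow (hu : JC A U u) (m : ℕ) : JC A U fun l p => u l p ^ m :=
  ⟨hu.1, fun p => (hu.2 p).pow (hu.op p) m⟩

theorem exp (hu : JC A U u) : JC A U fun l p => Real.exp (u l p) := hu.comp Real.contDiff_exp

theorem inv (hu : JC A U u) (h : ∀ l, ∀ p ∈ U, u l p ≠ 0) : JC A U fun l p => (u l p)⁻¹ :=
  ⟨hu.1, fun p => (hu.2 p).inv (hu.op p) fun l _ hx => h l _ hx.2⟩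

theorem div (hu : JC A U u) (hv : JC A U v) (h : ∀ l, ∀ p ∈ U, v l p ≠ 0) :
    JC A U fun l p => u l p / v l p :=
  ⟨hu.1, fun p => (hu.2 p).div (hu.op p) (hv.2 p) fun l _ hx => h l _ hx.2⟩

theorem sqrt (hu : JC A U u) (h : ∀ l, ∀ p ∈ U, u l p ≠ 0) : JC A U fun l p => √(u l p) :=
  ⟨hu.1, fun p => (hu.2 p).sqrt (hu.op p) fun l _ hx => h l _ hx.2⟩

theorem log (hu : JC A U u) (h : ∀ l, ∀ p ∈ U, u l p ≠ 0) : JC A U fun l p => Real.log (u l p) :=
  ⟨hu.1, fun p => (hu.2 p).log (hu.op p) fun l _ hx => h l _ hx.2⟩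

theorem fsum {α : Type*} (hU : IsOpen U) (s : Finset α) {w : α → Λ → X → F}
    (h : ∀ j ∈ s, JC A U (w j)) : JC A U fun l p => ∑ j ∈ s, w j l p :=
  ⟨hU, fun p => J.CJ.fsum (A.isOpen_tg hU p) s fun j hj => (h j hj).2 p⟩

theorem pi {α : Type} [Fintype α] (hU : IsOpen U) {w : Λ → X → α → F}
    (h : ∀ j, JC A U fun l p => w l p j) : JC A U w :=
  ⟨hU, fun p => J.CJ.pi (A.isOpen_tg hU p) fun j => (h j).2 p⟩

theorem apply {α : Type} [Fintype α] {w : Λ → X → α → F} (h : JC A U w) (j : α) :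
    JC A U fun l p => w l p j := h.comp (contDiff_apply ℝ F j)

theorem coord {α : Type} [Fintype α] {w : Λ → X → E α} (h : JC A U w) (j : α) :
    JC A U fun l p => w l p j := h.comp (contDiff_euclidean.1 contDiff_id j)

theorem euclid {α : Type} [Fintype α] (hU : IsOpen U) {w : Λ → X → E α}
    (h : ∀ j, JC A U fun l p => w l p j) : JC A U w :=
  (pi (w := fun l p j => w l p j) hU h).comp (Φ := fun y : α → ℝ => (WithLp.toLp 2 y : E α))
    (contDiff_euclidean.2 fun j => contDiff_apply ℝ ℝ j)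

/-- jointly smooth families -/
theorem of_smJ {Z : Type} [NormedAddCommGroup Z] [NormedSpace ℝ Z] {w : Z → X → F} {V : Set Z}
    (hw : N222.A.SmJ A.ch V w) (hV : IsOpen V) {e : Λ → Z} (he : Continuous e) (hm : ∀ l, e l ∈ V) :
    JC A univ fun l => w (e l) := by
  refine ⟨isOpen_univ, fun p => ?_⟩
  rw [A.tg_univ]
  exact J.CJ.of_smooth_open (Φ := fun q : Z × E (Fin d) => w q.1 ((A.ch p).symm q.2))
    (A.ch p).open_target (hV.prod (A.ch p).open_target)
    ((hw p).comp (f := fun q : Z × E (Fin d) => (q.2, q.1)) (by fun_prop) fun _ hq => ⟨hq.2, hq.1⟩)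
    he fun l _ hx => ⟨hm l, hx⟩

/-- multiplication by a cut-off: `χ u` extends by zero -/
theorem cutoff (hu : JC A U f) {χ : X → ℝ} (hχ : A.SmOn univ χ) (hs : tsupport χ ⊆ U) :
    JC A univ fun l p => χ p • f l p := by
  refine of_local isOpen_univ fun p _ => ?_
  by_cases hp : p ∈ U
  · exact ⟨U, hp, (fixed hu.1 (hχ.mono (subset_univ _))).smul hu⟩
  · refine ⟨(tsupport χ)ᶜ, fun h => hp (hs h), (const (isClosed_tsupport χ).isOpen_compl 0).congr
      fun l q hq => ?_⟩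
    rw [image_eq_zero_of_notMem_tsupport hq, zero_smul]

/-- **tube lemma** -/
theorem tube (h : JC A U f) {K : Set X} (hK : IsCompact K) (hKU : K ⊆ U) {O : Set (X × F)}
    (hO : IsOpen O) {l0 : Λ} (h0 : ∀ p ∈ K, (p, f l0 p) ∈ O) :
    ∀ᶠ l in 𝓝 l0, ∀ p ∈ K, (p, f l p) ∈ O :=
  hK.eventually_forall_of_forall_eventually fun p hp =>
    (continuousAt_snd.prodMk (h.continuousAt (hKU hp) l0)).eventually (hO.mem_nhds (h0 p hp))

theorem eventually_lt (hu : JC A U u) (hv : JC A U v) {K : Set X} (hK : IsCompact K) (hKU : K ⊆ U)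
    {l0 : Λ} (h0 : ∀ p ∈ K, u l0 p < v l0 p) : ∀ᶠ l in 𝓝 l0, ∀ p ∈ K, u l p < v l p :=
  (hu.prodMk hv).tube hK hKU (O := {z | z.2.1 < z.2.2}) (isOpen_lt (by fun_prop) (by fun_prop)) h0

/-- uniform convergence on compact sets -/
theorem eventually_norm (h : JC A U f) {K : Set X} (hK : IsCompact K) (hKU : K ⊆ U) (l0 : Λ)
    {ε : ℝ} (hε : 0 < ε) : ∀ᶠ l in 𝓝 l0, ∀ p ∈ K, ‖f l p - f l0 p‖ < ε :=
  (h.sub (h.reparam (e := fun _ => l0) continuous_const)).tube hK hKU (O := {z | ‖z.2‖ < ε})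
    (isOpen_lt (by fun_prop) continuous_const) fun p _ => by simpa using hε

/-- bounds on compact sets -/
theorem exists_bound (h : JC A U f) {L : Set Λ} (hL : IsCompact L) {K : Set X} (hK : IsCompact K)
    (hKU : K ⊆ U) : ∃ C, ∀ l ∈ L, ∀ p ∈ K, ‖f l p‖ ≤ C := by
  obtain ⟨C, hC⟩ := (hL.prod hK).exists_bound_of_continuousOn
    (h.continuousOn.mono (prod_mono (subset_univ _) hKU))
  exact ⟨C, fun l hl p hp => hC (l, p) ⟨hl, hp⟩⟩

end JC

/-! ### families of calculi -/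

variable {ι : Type} [Fintype ι]

/-- a family of delta-calculi which preserves `JC` -/
structure PJ (A : J.Atl d X) (U : Set X) (S : Λ → Pre (X → ℝ) ι) : Prop where
  op : IsOpen U
  x : ∀ a, JC A U fun l => (S l).x a
  D : ∀ a {f : Λ → X → ℝ}, JC A U f → JC A U fun l => (S l).D a (f l)

/-- the algebra of `JC` families -/
def JR (A : J.Atl d X) {U : Set X} (hU : IsOpen U) (Λ : Type) [TopologicalSpace Λ] :
    Subalgebra ℝ (Λ → X → ℝ) where
  carrier := {f | JC A U f}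
  mul_mem' hf hg := JC.mul hf hg
  add_mem' hf hg := JC.add hf hg
  algebraMap_mem' r := JC.const hU r

namespace PJ

variable {S : Λ → Pre (X → ℝ) ι} (h : PJ A U S)

/-- the calculus on the algebra of families -/
def pre : Pre (JR A h.op Λ) ι where
  x a := ⟨fun l => (S l).x a, h.x a⟩
  D a f := ⟨fun l => (S l).D a (f.1 l), h.D a f.2⟩

/-- evaluation at a parameter -/
def ev (l : Λ) : JR A h.op Λ →+* (X → ℝ) :=
  (Pi.evalRingHom (fun _ : Λ => X → ℝ) l).comp (JR A h.op Λ).val.toRingHom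

theorem hom (l : Λ) : h.pre.Hom (S l) (h.ev l) := ⟨fun _ => rfl, fun _ _ => rfl⟩

theorem of_ev (T : JR A h.op Λ) {f : Λ → X → ℝ} (e : ∀ l, h.ev l T = f l) : JC A U f :=
  (funext e : (fun l => h.ev l T) = f) ▸ T.2

variable {f g u v w m F : Λ → X → ℝ} {Y : Λ → ι → X → ℝ}

include h

theorem mono {U' : Set X} (hU : IsOpen U') (hs : U' ⊆ U)
    (hD : ∀ a {f : Λ → X → ℝ}, JC A U' f → JC A U' fun l => (S l).D a (f l)) : PJ A U' S :=
  ⟨hU, fun a => (h.x a).mono hU hs, hD⟩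

theorem P (a b : ι) : JC A U fun l => (S l).P a b := h.of_ev _ fun l => (h.hom l).P a b
theorem II (a b c : ι) : JC A U fun l => (S l).II a b c := h.of_ev _ fun l => (h.hom l).II a b c
theorem H (c : ι) : JC A U fun l => (S l).H c := h.of_ev _ fun l => (h.hom l).H c
theorem Ric (a b : ι) : JC A U fun l => (S l).Ric a b := h.of_ev _ fun l => (h.hom l).Ric a b
theorem scal : JC A U fun l => (S l).scal := h.of_ev _ fun l => (h.hom l).scal

theorem gam (hf : JC A U f) (hg : JC A U g) : JC A U fun l => (S l).gam (f l) (g l) :=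
  h.of_ev _ fun l => (h.hom l).gam ⟨f, hf⟩ ⟨g, hg⟩

theorem lap (hf : JC A U f) : JC A U fun l => (S l).lap (f l) :=
  h.of_ev _ fun l => (h.hom l).lap ⟨f, hf⟩

theorem hess (hf : JC A U f) (a b : ι) : JC A U fun l => (S l).hess (f l) a b :=
  h.of_ev _ fun l => (h.hom l).hess ⟨f, hf⟩ a b

theorem lapF (hF : JC A U F) (hf : JC A U f) : JC A U fun l => (S l).lapF (F l) (f l) :=
  h.of_ev _ fun l => (h.hom l).lapF ⟨F, hF⟩ ⟨f, hf⟩

theorem EF (hF : JC A U F) : JC A U fun l => (S l).EF (F l) :=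
  h.of_ev _ fun l => (h.hom l).EF ⟨F, hF⟩

theorem dv (hY : ∀ a, JC A U fun l => Y l a) : JC A U fun l => (S l).dv (Y l) :=
  h.of_ev _ fun l => (h.hom l).dv fun a => ⟨_, hY a⟩

theorem dir (hY : ∀ a, JC A U fun l => Y l a) (hf : JC A U f) :
    JC A U fun l => (S l).dir (Y l) (f l) :=
  h.of_ev _ fun l => (h.hom l).dir (fun a => ⟨_, hY a⟩) ⟨f, hf⟩

theorem dvF (hF : JC A U F) (hY : ∀ a, JC A U fun l => Y l a) :
    JC A U fun l => (S l).dvF (F l) (Y l) :=
  h.of_ev _ fun l => (h.hom l).dvF ⟨F, hF⟩ fun a => ⟨_, hY a⟩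

theorem Eb (hY : ∀ a, JC A U fun l => Y l a) : JC A U fun l => (S l).Eb (Y l) :=
  h.of_ev _ fun l => (h.hom l).Eb fun a => ⟨_, hY a⟩

theorem Xf (hu : JC A U u) (hv : JC A U v) (a : ι) : JC A U fun l => (S l).X (u l) (v l) a :=
  h.of_ev _ fun l => (h.hom l).X ⟨u, hu⟩ ⟨v, hv⟩ a

theorem nu (hu : JC A U u) (hv : JC A U v) (c : Option ι) :
    JC A U fun l => (S l).nu (u l) (v l) c := h.of_ev _ fun l => (h.hom l).nu ⟨u, hu⟩ ⟨v, hv⟩ c

theorem a2 (hu : JC A U u) (hv : JC A U v) : JC A U fun l => (S l).a2 (u l) (v l) :=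
  h.of_ev _ fun l => (h.hom l).a2 ⟨u, hu⟩ ⟨v, hv⟩

theorem hF (hF : JC A U F) (hu : JC A U u) (hv : JC A U v) :
    JC A U fun l => (S l).hF (F l) (u l) (v l) :=
  h.of_ev _ fun l => (h.hom l).hF ⟨F, hF⟩ ⟨u, hu⟩ ⟨v, hv⟩

theorem hb (hY : ∀ a, JC A U fun l => Y l a) (hu : JC A U u) (hv : JC A U v) :
    JC A U fun l => (S l).hb (Y l) (u l) (v l) :=
  h.of_ev _ fun l => (h.hom l).hb (fun a => ⟨_, hY a⟩) ⟨u, hu⟩ ⟨v, hv⟩

theorem lift (hY : ∀ a, JC A U fun l => Y l a) (hu : JC A U u) (hv : JC A U v) (c : Option ι) :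
    JC A U fun l => (S l).lift (u l) (v l) (Y l) c :=
  h.of_ev _ fun l => (h.hom l).lift ⟨u, hu⟩ ⟨v, hv⟩ (fun a => ⟨_, hY a⟩) c

theorem newb (hY : ∀ a, JC A U fun l => Y l a) (hu : JC A U u) (hv : JC A U v) (hw : JC A U w)
    (hm : JC A U m) (c : Option ι) : JC A U fun l => (S l).newb (u l) (v l) (w l) (m l) (Y l) c :=
  h.of_ev _ fun l => (h.hom l).newb ⟨u, hu⟩ ⟨v, hv⟩ ⟨w, hw⟩ ⟨m, hm⟩ (fun a => ⟨_, hY a⟩) c

/-- graphs -/
theorem graph (hu : JC A U u) (hv : JC A U v) : PJ A U fun l => (S l).graph (u l) (v l) :=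
  ⟨h.op, fun c => h.of_ev _ fun l => ((h.hom l).graph ⟨u, hu⟩ ⟨v, hv⟩).x c,
    fun c {f} hf => h.of_ev _ fun l => ((h.hom l).graph ⟨u, hu⟩ ⟨v, hv⟩).D c ⟨f, hf⟩⟩

theorem ww (hu : JC A U u) : JC A U fun l => N222.A.ww (S l) (u l) :=
  ((JC.const h.op 1).add (h.gam hu hu)).sqrt fun l p _ =>
    (N222.A.one_add_gam_pos (S l) (u l) p).ne'

theorem vv (hu : JC A U u) : JC A U fun l => N222.A.vv (S l) (u l) :=
  (h.ww hu).inv fun l p _ => (Real.sqrt_pos.2 (N222.A.one_add_gam_pos (S l) (u l) p)).ne'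

end PJ

/-! ### families of immersions -/

/-- a family of immersions with common charts -/
structure Fm (A : J.Atl d X) (U : Set X) (N : Λ → Imm d ι X) : Prop where
  ch : ∀ l, (N l).ch = A.ch
  x : JC A U fun l => (N l).x

namespace Fm

variable {N : Λ → Imm d ι X}

theorem fixed (M : Imm d ι X) (hA : A.ch = M.ch) (hU : IsOpen U) : Fm A U fun _ : Λ => M :=
  ⟨fun _ => hA.symm, JC.fixed hU fun p => by
    have := (M.isChart p).sm
    rw [← hA] at this
    exact this.mono inter_subset_left⟩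

theorem mono (h : Fm A U N) {U' : Set X} (hU : IsOpen U') (hs : U' ⊆ U) : Fm A U' N :=
  ⟨h.ch, h.x.mono hU hs⟩

theorem reparam {Λ' : Type} [TopologicalSpace Λ'] (h : Fm A U N) {e : Λ' → Λ}
    (he : Continuous e) : Fm A U fun l => N (e l) := ⟨fun l => h.ch (e l), h.x.reparam he⟩

theorem td (h : Fm A U N) {f : Λ → X → F} (hf : JC A U f) : JC A U fun l => (N l).td (f l) := by
  refine ⟨hf.1, fun p => ?_⟩
  have ho := hf.op p
  have hc : ∀ l, IsChart (N l).x (A.ch p) := fun l => h.ch l ▸ (N l).isChart p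
  have h1 := ((h.x.2 p).fd ho).comp_at ho ContinuousLinearMap.isOpen_injective
    (fun J hJ => contDiffAt_Lam hJ) fun l x hx => (hc l).inj x hx.1
  have h2 := h1.comp_smooth ho (contDiff_adjoint (κ := Fin d) (ι := ι))
  have h3 := (((hf.2 p).fd ho).prodMk ho h2).comp_smooth ho
    (Φ := fun q : (E (Fin d) →L[ℝ] F) × (E ι →L[ℝ] E (Fin d)) => q.1 ∘L q.2)
    (contDiff_fst.clm_comp contDiff_snd)
  refine h3.congr ho fun l x hx => ?_
  have h4 := Imm.td_chart (f l) (hc l) ((A.ch p).map_target hx.1)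
  rw [(A.ch p).right_inv hx.1] at h4
  exact h4

theorem graph (h : Fm A U N) {u : Λ → X → ℝ} (hs : ∀ l, (N l).Sm (u l)) (hu : JC A U u) :
    Fm A U fun l => (N l).graph (u l) (hs l) :=
  ⟨h.ch, (hu.prodMk h.x).comp contDiff_up⟩

variable [DecidableEq ι]

theorem pj (h : Fm A U N) : PJ A U fun l => (N l).pre :=
  ⟨h.x.1, fun a => h.x.coord a, fun a _ hf => (h.td hf).comp
    (Φ := fun T : E ι →L[ℝ] ℝ => T (ee a)) (contDiff_id.clm_apply contDiff_const)⟩

theorem vv (h : Fm A U N) {u : Λ → X → ℝ} (hu : JC A U u) : JC A U fun l => (N l).vv (u l) :=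
  h.pj.vv hu

theorem gS (h : Fm A U N) {u : Λ → X → ℝ} (hu : JC A U u) : PJ A U fun l => (N l).gS (u l) :=
  h.pj.graph hu (h.vv hu)

theorem grad (h : Fm A U N) {u : Λ → X → ℝ} (hu : JC A U u) : JC A U fun l => (N l).grad (u l) :=
  JC.euclid hu.1 fun a => h.pj.D a hu

end Fm

/-- smooth functions of an immersed manifold as constant families -/
theorem JC.of_sm [DecidableEq ι] {M : Imm d ι X} (hA : A.ch = M.ch) (hU : IsOpen U) {w : X → F}
    (hw : M.Sm w) : JC A U fun _ : Λ => w :=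
  JC.fixed hU (((M.smOn_univ hA).2 hw).mono (subset_univ _))

theorem JC.sm [DecidableEq ι] {M : Imm d ι X} (hA : A.ch = M.ch) {f : Λ → X → F}
    (hf : JC A univ f) (l : Λ) : M.Sm (f l) := (M.smOn_univ hA).1 (hf.smOn l)

end Crest.Agent.N228.J

end
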