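import Crest.Agent.N228.J.Sol

/-!
# Row 228, solver layer (helper41): families of solutions on a compact manifold
-/

set_option autoImplicit false
set_option linter.unusedSectionVars false
open Set Filter Topology Function
open scoped ContDiff
open Crest.Agent.N222

noncomputable section

namespace Crest.Agent.N228.J

variable {d : ℕ} {ι : Type} [Fintype ι] [DecidableEq ι] {X : Type} [TopologicalSpace X]
  [T2Space X] [CompactSpace X] {A : J.Atl d X} {Λ : Type} [TopologicalSpace Λ]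
  [FirstCountableTopology Λ] {N : Λ → Imm d ι X} {b : Λ → ι → X → ℝ}
  {P : Type} [NormedAddCommGroup P] [NormedSpace ℝ P] [FiniteDimensional ℝ P]

/-- **FAM**: a family of solutions between constant barriers; all jets are jointly continuous -/
theorem exists_fam {Φ : P × ℝ × ℝ → ℝ} {I : Set ℝ} {C : Set P} {c : Λ → X → P} (hN : Fm A univ N)
    (hb : ∀ a, JC A univ fun l => b l a) (hΦ : J.Good Φ I C) (hc : JC A univ c)
    (hC : ∀ l p, c l p ∈ C)
    (h : ∀ l, ∃ s ∈ I, ∃ t ∈ I, s ≤ t ∧ ∀ p, Φ (c l p, s, 1) ≤ 0 ∧ 0 ≤ Φ (c l p, t, 1)) :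
    ∃ u : Λ → X → ℝ, JC A univ u ∧ ∀ l, (N l).Sm (u l) ∧ ∀ p, u l p ∈ I ∧
      QQ (N l) (b l) (u l) p = Φ (c l p, u l p, (N l).vv (u l) p) := by
  have H : ∀ l, ∃ u, (N l).Sm u ∧ ∀ p, u p ∈ I ∧
      QQ (N l) (b l) u p = Φ (c l p, u p, (N l).vv u p) := fun l => by
    obtain ⟨s, hs, t, ht, hst, h1⟩ := h l
    obtain ⟨u, hu, h2⟩ := exists_sol_const (fun a => (hb a).sm (hN.ch l).symm l) hΦ
      (hc.sm (hN.ch l).symm l) (hC l) hs ht hst (fun p => (h1 p).1) fun p => (h1 p).2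
    exact ⟨u, hu, fun p => ⟨hΦ.ord.out hs ht (h2 p).2, (h2 p).1⟩⟩
  choose u hu H using H
  exact ⟨u, cont_cpt hN hb hΦ hc hu (fun l p => ⟨hC l p, (H l p).1⟩) fun l p => (H l p).2,
    fun l => ⟨hu l, H l⟩⟩

/-- the right hand side `q (S (L, t) - k)` -/
def PhiS (S : P × ℝ → ℝ) (z : (ℝ × P × ℝ) × ℝ × ℝ) : ℝ := z.1.1 * (S (z.1.2.1, z.2.1) - z.1.2.2)

theorem good_PhiS {S : P × ℝ → ℝ} (hS : ContDiff ℝ ∞ S) {C : Set P}
    (hp : ∀ L ∈ C, ∀ t, 0 < deriv (fun s => S (L, s)) t) :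
    J.Good (PhiS S) univ {z | 0 < z.1 ∧ z.2.1 ∈ C} := by
  refine ⟨isOpen_univ, ordConnected_univ, ContDiff.contDiffOn ?_, fun c hc t _ v _ => ?_⟩
  · exact (contDiff_fst.fst).mul ((hS.comp (contDiff_fst.snd.fst.prodMk contDiff_snd.fst)).sub
      contDiff_fst.snd.snd)
  · have h : DifferentiableAt ℝ (fun s => S (c.2.1, s)) t :=
      ((hS.comp (contDiff_const.prodMk contDiff_id)).differentiable (by simp)) t
    have := ((h.hasDerivAt.sub_const c.2.2).const_mul c.1).deriv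
    simp only [PhiS]
    rw [this]
    exact mul_pos hc.1 (hp _ hc.2 t)

/-- a function with derivative `≥ τ > 0` takes small and large values -/
theorem exists_le_ge {f : ℝ → ℝ} (hf : Differentiable ℝ f) {τ : ℝ} (hτ : 0 < τ)
    (h : ∀ t, τ ≤ deriv f t) (K : ℝ) : ∃ s t, s ≤ t ∧ f s ≤ -K ∧ K ≤ f t := by
  set m := (|K| + |f 0|) / τ with hm
  have h0 : 0 ≤ m := by positivity
  have h1 := mul_sub_le_image_sub_of_le_deriv hf h h0
  have h2 := mul_sub_le_image_sub_of_le_deriv hf h (neg_nonpos.2 h0)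
  have h3 : τ * m = |K| + |f 0| := by rw [hm]; field_simp
  refine ⟨-m, m, by linarith, ?_, ?_⟩ <;>
    nlinarith [le_abs_self K, le_abs_self (f 0), neg_abs_le (f 0)]

/-- **FAM-S**: `div X + b(X) = q (S (L, u) - k)`, `q > 0`, `∂_t S ≥ τ > 0`.  The last part is the
maximum principle. -/
theorem exists_fam_S {S : P × ℝ → ℝ} (hS : ContDiff ℝ ∞ S) {L : Λ → P} (hL : Continuous L)
    (hτ : ∀ l, ∃ τ > 0, ∀ t, τ ≤ deriv (fun s => S (L l, s)) t) (hN : Fm A univ N)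
    (hb : ∀ a, JC A univ fun l => b l a) {q k : Λ → X → ℝ} (hq : JC A univ q) (hk : JC A univ k)
    (hq0 : ∀ l p, 0 < q l p) :
    ∃ u : Λ → X → ℝ, JC A univ u ∧ ∀ l, (N l).Sm (u l) ∧
      (∀ p, QQ (N l) (b l) (u l) p = q l p * (S (L l, u l p) - k l p)) ∧
      (∀ t, (∀ p, k l p ≤ S (L l, t)) → ∀ p, u l p ≤ t) ∧
      ∀ s, (∀ p, S (L l, s) ≤ k l p) → ∀ p, s ≤ u l p := by
  have hΦ := good_PhiS hS (C := range L) (by
    rintro _ ⟨l, rfl⟩ t
    obtain ⟨τ, h1, h2⟩ := hτ l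
    exact h1.trans_le (h2 t))
  have hC : ∀ l p, (q l p, L l, k l p) ∈ {z : ℝ × P × ℝ | 0 < z.1 ∧ z.2.1 ∈ range L} :=
    fun l p => ⟨hq0 l p, l, rfl⟩
  obtain ⟨u, hu, H⟩ := exists_fam hN hb hΦ (hq.prodMk ((JC.consts isOpen_univ hL).prodMk hk)) hC
    fun l => by
      obtain ⟨τ, h1, h2⟩ := hτ l
      obtain ⟨K, hK⟩ := hk.exists_bound (isCompact_singleton (x := l)) isCompact_univ subset_rfl
      obtain ⟨s, t, hst, h3, h4⟩ := exists_le_ge (f := fun s => S (L l, s))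
        ((hS.comp (contDiff_const.prodMk contDiff_id)).differentiable (by simp)) h1 h2 K
      refine ⟨s, trivial, t, trivial, hst, fun p => ?_⟩
      have := abs_le.1 (hK l rfl p trivial)
      exact ⟨mul_nonpos_of_nonneg_of_nonpos (hq0 l p).le (sub_nonpos.2 (h3.trans this.1)),
        mul_nonneg (hq0 l p).le (sub_nonneg.2 (this.2.trans h4))⟩
  have hbs : ∀ l a, (N l).Sm (b l a) := fun l a => (hb a).sm (hN.ch l).symm l
  refine ⟨u, hu, fun l => ⟨(H l).1, fun p => ((H l).2 p).2, fun t ht => ?_, fun s hs => ?_⟩⟩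
  · refine cmp_cpt (c := fun p => (q l p, L l, k l p)) (hbs l) hΦ (H l).1 (Imm.sm_const t)
      (fun p => ⟨hC l p, trivial, trivial⟩) (fun p => ((H l).2 p).2.ge) fun p => ?_
    rw [QQ_const]
    exact mul_nonneg (hq0 l p).le (sub_nonneg.2 (ht p))
  · refine cmp_cpt (c := fun p => (q l p, L l, k l p)) (hbs l) hΦ (Imm.sm_const s) (H l).1
      (fun p => ⟨hC l p, trivial, trivial⟩) (fun p => ?_) fun p => ((H l).2 p).2.le
    rw [QQ_const]
    exact mul_nonpos_of_nonneg_of_nonpos (hq0 l p).le (sub_nonpos.2 (hs p))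

end Crest.Agent.N228.J

end
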