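import Crest.Agent.N228.J.JC

/-!
# Row 228, solver layer (helper41): jointly smooth paths through a jet-continuous family
-/

set_option autoImplicit false
set_option linter.unusedSectionVars false
open Set Filter Topology Function Metric
open scoped ContDiff
open Crest.Agent.N222

noncomputable section

namespace Crest.Agent.N228.J

variable {d : ℕ} {X : Type} [TopologicalSpace X] {F : Type} [NormedAddCommGroup F]
  [NormedSpace ℝ F] {A : J.Atl d X} {U : Set X}

/-- the segment family; the parameter is `(s, s₁, s₂, λ)` -/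
def seg (u : ℝ → X → F) (z : ℝ × ℝ × ℝ × ℝ) (p : X) : F :=
  (1 - z.2.2.2) • u z.2.1 p + z.2.2.2 • u z.2.2.1 p

theorem seg_diag (u : ℝ → X → F) (s t l : ℝ) : seg u (s, t, t, l) = u t := by
  funext p
  simp only [seg, ← add_smul, sub_add_cancel, one_smul]

theorem JC.seg {u : ℝ → X → F} (hu : JC A U u) : JC A U (seg u) :=
  ((JC.consts hu.1 (by fun_prop)).smul (hu.reparam (by fun_prop))).add
    ((JC.consts hu.1 (by fun_prop)).smul (hu.reparam (by fun_prop)))

/-- a family in `s`, seen on the parameter space of segments -/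
theorem JC.seg0 {u : ℝ → X → F} (hu : JC A U u) : JC A U fun z : ℝ × ℝ × ℝ × ℝ => u z.1 :=
  hu.reparam continuous_fst

theorem smA_seg {ch : X → OpenPartialHomeomorph X (E (Fin d))} {u : ℝ → X → F}
    (hu : ∀ s, SmA ch (u s)) (z : ℝ × ℝ × ℝ × ℝ) : SmA ch (seg u z) := fun p =>
  ((hu _ p).const_smul _).add ((hu _ p).const_smul _)

/-- short segments -/
def Near (δ : ℝ) (z : ℝ × ℝ × ℝ × ℝ) : Prop :=
  z.1 ∈ Icc (0 : ℝ) 1 ∧ z.2.1 ∈ Icc (0 : ℝ) 1 ∧ z.2.2.1 ∈ Icc (0 : ℝ) 1 ∧ z.2.2.2 ∈ Icc (0 : ℝ) 1 ∧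
    |z.2.1 - z.1| ≤ δ ∧ |z.2.2.1 - z.1| ≤ δ

/-- a property that holds near the diagonal holds for all short segments -/
theorem exists_near {R : ℝ × ℝ × ℝ × ℝ → Prop}
    (h : ∀ s ∈ Icc (0 : ℝ) 1, ∀ l ∈ Icc (0 : ℝ) 1, ∀ᶠ z in 𝓝 (s, s, s, l), R z) :
    ∃ δ > 0, ∀ z, Near δ z → R z := by
  have hK : IsCompact ((fun q : ℝ × ℝ => (q.1, q.1, q.1, q.2)) '' (Icc (0 : ℝ) 1 ×ˢ Icc (0 : ℝ) 1)) :=
    (isCompact_Icc.prod isCompact_Icc).image (by fun_prop)
  obtain ⟨δ, hδ, H⟩ := hK.exists_cthickening_subset_open isOpen_interior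
    (t := interior {z | R z}) (by
      rintro _ ⟨q, hq, rfl⟩
      exact mem_interior_iff_mem_nhds.2 (h q.1 hq.1 q.2 hq.2))
  refine ⟨δ, hδ, fun z hz => interior_subset (H ?_)⟩
  refine mem_cthickening_of_dist_le z (z.1, z.1, z.1, z.2.2.2) δ _
    ⟨(z.1, z.2.2.2), ⟨hz.1, hz.2.2.2.1⟩, rfl⟩ ?_
  simp only [Prod.dist_eq, dist_self, Real.dist_eq, max_le_iff]
  exact ⟨hδ.le, hz.2.2.2.2.1, hz.2.2.2.2.2, hδ.le⟩

theorem path_aux {G : Type} [AddCommGroup G] [Module ℝ G] (n : ℕ) (w : ℕ → G) (t : ℝ) (h0 : 0 ≤ t) (hn : t ≤ n + 1) :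
    ∃ (i : ℕ) (l : ℝ), i ≤ n ∧ (i : ℝ) ≤ t ∧ t ≤ i + 1 ∧ l ∈ Icc (0 : ℝ) 1 ∧
      w 0 + ∑ j ∈ Finset.range (n + 1), Real.smoothTransition (t - j) • (w (j + 1) - w j)
        = (1 - l) • w i + l • w (i + 1) := by
  induction n with
  | zero =>
    refine ⟨0, Real.smoothTransition t, le_rfl, by simpa using h0, by simpa using hn,
      ⟨Real.smoothTransition.nonneg _, Real.smoothTransition.le_one _⟩, ?_⟩
    simp only [zero_add, Finset.range_one, Finset.sum_singleton, Nat.cast_zero, sub_zero]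
    module
  | succ n ih =>
    rcases le_total t (n + 1) with h | h
    · obtain ⟨i, l, h1, h2, h3, h4, h5⟩ := ih h
      refine ⟨i, l, h1.trans n.le_succ, h2, h3, h4, ?_⟩
      rw [Finset.sum_range_succ, Real.smoothTransition.zero_of_nonpos (by push_cast; linarith),
        zero_smul, add_zero, h5]
    · refine ⟨n + 1, Real.smoothTransition (t - (n + 1 : ℕ)), le_rfl, by push_cast; exact h, hn,
        ⟨Real.smoothTransition.nonneg _, Real.smoothTransition.le_one _⟩, ?_⟩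
      have e : ∑ j ∈ Finset.range (n + 1), Real.smoothTransition (t - j) • (w (j + 1) - w j)
          = w (n + 1) - w 0 := by
        rw [← Finset.sum_range_sub w]
        refine Finset.sum_congr rfl fun j hj => ?_
        have : (j : ℝ) ≤ n := by exact_mod_cast Nat.lt_succ_iff.1 (Finset.mem_range.1 hj)
        rw [Real.smoothTransition.one_of_one_le (by linarith), one_smul]
      rw [Finset.sum_range_succ, e]
      module

/-- **PATH**: a jointly smooth path made of short segments -/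
theorem exists_path {ch : X → OpenPartialHomeomorph X (E (Fin d))} {u : ℝ → X → F}
    (hu : ∀ s, SmA ch (u s)) {δ : ℝ} (hδ : 0 < δ) : ∃ v : ℝ → X → F, N222.A.SmJ ch univ v ∧
      (∀ s ≤ 0, v s = u 0) ∧ (∀ s, 1 ≤ s → v s = u 1) ∧
      ∀ s ∈ Icc (0 : ℝ) 1, ∃ z, Near δ z ∧ z.1 = s ∧ v s = seg u z := by
  obtain ⟨n, hn⟩ := exists_nat_one_div_lt hδ
  have h1 : (0 : ℝ) < n + 1 := by positivity
  refine ⟨fun s p => u 0 p + ∑ j ∈ Finset.range (n + 1), Real.smoothTransition ((n + 1) * s - j) •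
    (u ((j + 1 : ℕ) / (n + 1)) p - u (j / (n + 1)) p), ?_, fun s hs => ?_, fun s hs => ?_,
    fun s hs => ?_⟩
  · refine (N222.A.SmJ.of_smA (hu 0)).add (N222.A.SmJ.sum _ fun j _ => N222.A.SmJ.smul
      (N222.A.SmJ.param ?_) ((N222.A.SmJ.of_smA (hu _)).sub (N222.A.SmJ.of_smA (hu _))))
    exact (Real.smoothTransition.contDiff.comp (by fun_prop)).contDiffOn
  · funext p
    beta_reduce
    rw [Finset.sum_eq_zero, add_zero]
    intro j _
    rw [Real.smoothTransition.zero_of_nonpos, zero_smul]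
    nlinarith [(Nat.cast_nonneg j : (0 : ℝ) ≤ j)]
  · funext p
    have e := Finset.sum_range_sub (fun j : ℕ => u (j / (n + 1)) p) (n + 1)
    beta_reduce
    rw [Finset.sum_congr rfl (g := fun j : ℕ => u ((j + 1 : ℕ) / (n + 1)) p - u (j / (n + 1)) p), e]
    · simp [div_self h1.ne']
    · intro j hj
      have : (j : ℝ) ≤ n := by exact_mod_cast Nat.lt_succ_iff.1 (Finset.mem_range.1 hj)
      rw [Real.smoothTransition.one_of_one_le (by nlinarith), one_smul]
  · obtain ⟨i, l, a1, a2, a3, a4, a5⟩ := path_aux n (fun j : ℕ => u (j / (n + 1))) ((n + 1) * s)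
      (mul_nonneg h1.le hs.1) (mul_le_of_le_one_right h1.le hs.2)
    have a6 : (i : ℝ) ≤ n := by exact_mod_cast a1
    have a7 : (0 : ℝ) ≤ i := Nat.cast_nonneg i
    have a8 : 1 ≤ δ * (n + 1) := by rw [div_lt_iff₀ h1] at hn; exact hn.le
    refine ⟨(s, i / (n + 1), (i + 1 : ℕ) / (n + 1), l), ⟨hs, ⟨by positivity, ?_⟩,
      ⟨by positivity, ?_⟩, a4, ?_, ?_⟩, rfl, ?_⟩
    · exact (div_le_one h1).2 (by linarith)
    · exact (div_le_one h1).2 (by push_cast; linarith)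
    · rw [abs_le, le_sub_iff_add_le, sub_le_iff_le_add, le_div_iff₀ h1, div_le_iff₀ h1]
      constructor <;> nlinarith
    · rw [abs_le, le_sub_iff_add_le, sub_le_iff_le_add, le_div_iff₀ h1, div_le_iff₀ h1]
      push_cast
      constructor <;> nlinarith
    · funext p
      have := congrFun a5 p
      simp only [Pi.add_apply, Finset.sum_apply, Pi.smul_apply, Pi.sub_apply, Nat.cast_zero,
        zero_div] at this
      exact this

/-- **PATH**, with a property that is open along the diagonal -/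
theorem exists_path_of {ch : X → OpenPartialHomeomorph X (E (Fin d))} {u : ℝ → X → F}
    (hu : ∀ s, SmA ch (u s)) {R : ℝ → (X → F) → Prop}
    (h : ∀ s ∈ Icc (0 : ℝ) 1, ∀ l ∈ Icc (0 : ℝ) 1, ∀ᶠ z in 𝓝 (s, s, s, l), R z.1 (seg u z)) :
    ∃ v : ℝ → X → F, N222.A.SmJ ch univ v ∧ (∀ s ≤ 0, v s = u 0) ∧ (∀ s, 1 ≤ s → v s = u 1) ∧
      ∀ s ∈ Icc (0 : ℝ) 1, R s (v s) := by
  obtain ⟨δ, hδ, H⟩ := exists_near h
  obtain ⟨v, h1, h2, h3, h4⟩ := exists_path hu hδ
  refine ⟨v, h1, h2, h3, fun s hs => ?_⟩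
  obtain ⟨z, hz, rfl, e⟩ := h4 s hs
  exact e ▸ H z hz

end Crest.Agent.N228.J

end
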