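import Crest.Agent.N228.J.Tw
import Crest.Agent.N228.Cf.Step
import Crest.Agent.N228.Nk.Pt

/-!
# Row 228, solver layer (helper41): CIRC, one graph step along a circle valued function
-/

set_option autoImplicit false
set_option linter.unusedSectionVars false
open Set Filter Topology Function Real
open scoped ContDiff InnerProductSpace RealInnerProductSpace
open Crest.Agent.N222 Crest.Agent.N222.Imm

noncomputable section

namespace Crest.Agent.N228.J

variable {d : ℕ} {ι : Type} [Fintype ι] [DecidableEq ι] {X : Type} [TopologicalSpace X]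
  {M : Imm d ι X} {co si u th : X → ℝ} {p : X} {R : ℝ}

/-- the graph of a map to the circle of radius `R` -/
def curl (M : Imm d ι X) (R : ℝ) (hc : M.Sm co) (hs : M.Sm si) : Imm d (Option (Option ι)) X :=
  (M.graph (fun p => R * si p) ((sm_const R).mul hs)).graph (fun p => R * co p)
    ((sm_const R).mul hc)

theorem sm_cos (hu : M.Sm u) (κ : ℝ) : M.Sm fun p => cos (κ * u p) :=
  ((sm_const κ).mul hu).comp contDiff_cos

theorem sm_sin (hu : M.Sm u) (κ : ℝ) : M.Sm fun p => sin (κ * u p) :=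
  ((sm_const κ).mul hu).comp contDiff_sin

theorem curl_rel (hu : M.Sm u) (hR : R ≠ 0) :
    Cf.CfRel (M.graph u hu) (curl M R (sm_cos hu R⁻¹) (sm_sin hu R⁻¹)) fun _ => 0 := by
  refine ⟨rfl, sm_const 0, fun p z hz => ?_⟩
  have he := M.isChart p
  have hs := (sm_const R).mul (sm_sin hu R⁻¹)
  have h1 := (((hu p).contDiffAt ((M.ch p).open_target.mem_nhds hz)).differentiableAt
    (by simp)).hasFDerivAt
  have h2 := ((h1.const_mul R⁻¹).cos.const_mul R).fderiv
  have h3 := ((h1.const_mul R⁻¹).sin.const_mul R).fderiv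
  have h4 : ∀ w, fderiv ℝ ((curl M R (sm_cos hu R⁻¹) (sm_sin hu R⁻¹)).x ∘ (M.ch p).symm) z w =
      up (-sin (R⁻¹ * u ((M.ch p).symm z)) * fderiv ℝ (u ∘ (M.ch p).symm) z w)
        (up (cos (R⁻¹ * u ((M.ch p).symm z)) * fderiv ℝ (u ∘ (M.ch p).symm) z w)
          (fderiv ℝ (M.x ∘ (M.ch p).symm) z w)) := fun w => by
    refine (Cf.fderiv_graph _ ((M.graph _ hs).isChart p) hz w).trans ?_
    rw [show (M.graph _ hs).ch p = M.ch p from rfl, Cf.fderiv_graph hs he hz]
    congr 1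
    · refine (congrArg (fun T : E (Fin d) →L[ℝ] ℝ => T w) h2).trans ?_
      simp only [smul_apply, smul_eq_mul, comp_apply]
      field_simp
    · congr 1
      refine (congrArg (fun T : E (Fin d) →L[ℝ] ℝ => T w) h3).trans ?_
      simp only [smul_apply, smul_eq_mul, comp_apply]
      field_simp
  ext i j
  change ⟪fderiv ℝ ((curl M R (sm_cos hu R⁻¹) (sm_sin hu R⁻¹)).x ∘ (M.ch p).symm) z (ee i),
    fderiv ℝ ((curl M R (sm_cos hu R⁻¹) (sm_sin hu R⁻¹)).x ∘ (M.ch p).symm) z (ee j)⟫ =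
    exp (2 * 0) * ⟪fderiv ℝ ((M.graph u hu).x ∘ (M.ch p).symm) z (ee i),
      fderiv ℝ ((M.graph u hu).x ∘ (M.ch p).symm) z (ee j)⟫
  rw [h4, h4, Cf.fderiv_graph hu he hz, Cf.fderiv_graph hu he hz, inner_up, inner_up, inner_up,
    mul_zero, exp_zero, one_mul]
  linear_combination (fderiv ℝ (u ∘ (M.ch p).symm) z (ee i) * fderiv ℝ (u ∘ (M.ch p).symm) z (ee j))
    * sin_sq_add_cos_sq (R⁻¹ * u ((M.ch p).symm z))

section Loc

variable (hc : M.Sm co) (hs : M.Sm si) (hu : M.Sm u) (hR : R ≠ 0)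
  (h : ∀ᶠ q in 𝓝 p, cos (R⁻¹ * u q) = co q ∧ sin (R⁻¹ * u q) = si q)

include h

theorem curl_loc : Loc (curl M R hc hs) (curl M R (sm_cos hu R⁻¹) (sm_sin hu R⁻¹)) id p :=
  h.mono fun q hq => ⟨continuousAt_id, by
    change up (R * co q) (up (R * si q) (M.x q)) = up (R * cos _) (up (R * sin _) (M.x q))
    rw [id, hq.1, hq.2]⟩

include hu hR

theorem curl_gam (f g : X → ℝ) : (curl M R hc hs).pre.gam f g p = (M.gS u).gam f g p := by
  let _ : MeasurableSpace X := ⊥
  refine ((curl_loc hc hs hu h).gam_iso f g).trans ?_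
  rw [(curl_rel hu hR).gam_eq, graph_pre, mul_zero, neg_zero, exp_zero, one_mul, id]

theorem curl_EF {F : X → ℝ} (hF : M.Sm F) : (curl M R hc hs).pre.EF F p = (M.gS u).EF F p := by
  let _ : MeasurableSpace X := ⊥
  have h0 : ∀ f : X → ℝ, (M.graph u hu).pre.gam (fun _ => 0) f p = 0 := fun f => by
    simp [gam_apply, D_const]
  have h1 : (M.graph u hu).pre.lap (fun _ => 0) p = 0 := by
    have : ∀ a, (M.graph u hu).pre.D a (fun _ => 0) = fun _ => 0 := fun a =>
      funext fun q => D_const _ _ _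
    simp [lap_apply, this, D_const]
  have h2 : (curl M R hc hs).pre.lap F p = _ := (curl_loc hc hs hu h).lap_iso F
  rw [← graph_pre hu, EF_apply, EF_apply, curl_gam hc hs hu hR h, graph_pre hu,
    (curl_loc hc hs hu h).scal_iso, (curl_rel hu hR).scal_eq, h2, (curl_rel hu hR).lap_eq hF, id,
    h0, h0, h1, graph_pre hu]
  simp

omit hR in
theorem gam_circ : M.pre.gam co co p + M.pre.gam si si p = R⁻¹ ^ 2 * M.pre.gam u u p := by
  have e1 : co =ᶠ[𝓝 p] fun q => cos (R⁻¹ * u q) := h.mono fun _ hq => hq.1.symm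
  have e2 : si =ᶠ[𝓝 p] fun q => sin (R⁻¹ * u q) := h.mono fun _ hq => hq.2.symm
  have h1 := ((sm_const R⁻¹).mul hu).diffAt p
  simp only [gam_apply, D_congr e1, D_congr e2, D_comp h1 (hasDerivAt_cos _),
    D_comp h1 (hasDerivAt_sin _), D_const_mul _ (hu.diffAt p), Finset.mul_sum,
    ← Finset.sum_add_distrib]
  exact Finset.sum_congr rfl fun a _ => by
    linear_combination (R⁻¹ ^ 2 * (M.pre.D a u p * M.pre.D a u p)) * sin_sq_add_cos_sq (R⁻¹ * u p)

end Loc

/-- lifts that are restrictions of global smooth functions -/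
theorem exists_lift_sm [T2Space X] [SecondCountableTopology X] (hc : M.Sm co) (hs : M.Sm si)
    (h : ∀ p, co p ^ 2 + si p ^ 2 = 1) (p : X) : ∃ th, M.Sm th ∧ IsLift co si th p := by
  obtain ⟨V, th, hV, hp, h1, h2⟩ := exists_lift ((M.smOn_univ (A := M.atl) rfl).2 hc)
    ((M.smOn_univ (A := M.atl) rfl).2 hs) h p
  obtain ⟨g, hg, e⟩ := SmOn.exists_sm_at (M := M) (f := th) (fun q hq => (h1 q).contDiffAt
    ((M.atl.isOpen_tg hV q).mem_nhds (M.atl.mem_tg_self hq))) hV hp
  refine ⟨g, hg, hg.continuous.continuousAt, ?_⟩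
  filter_upwards [e, hV.mem_nhds hp] with q e1 e2
  rw [e1]; exact h2 q e2

theorem IsLift.eventually (h : IsLift co si th p) (hc : ∀ᶠ q in 𝓝 p, ContinuousAt th q) :
    ∀ᶠ q in 𝓝 p, IsLift co si th q := hc.and h.2.eventually_nhds

/-- rotation of a circle valued function by the angle `2 π ψ` -/
def rotC (co si ψ : X → ℝ) (p : X) : ℝ := co p * cos (2 * π * ψ p) - si p * sin (2 * π * ψ p)

/-- rotation of a circle valued function by the angle `2 π ψ` -/
def rotS (co si ψ : X → ℝ) (p : X) : ℝ := si p * cos (2 * π * ψ p) + co p * sin (2 * π * ψ p)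

theorem IsLift.rot {ψ : X → ℝ} (h : IsLift co si th p) (hψ : ContinuousAt ψ p) :
    IsLift (rotC co si ψ) (rotS co si ψ) (fun q => th q + ψ q) p :=
  ⟨h.1.add hψ, h.2.mono fun q hq => by
    rw [mul_add, cos_add, sin_add, hq.1, hq.2]; exact ⟨rfl, rfl⟩⟩

theorem sm_rotC {ψ : X → ℝ} (hc : M.Sm co) (hs : M.Sm si) (hψ : M.Sm ψ) : M.Sm (rotC co si ψ) :=
  (hc.mul (sm_cos hψ _)).sub (hs.mul (sm_sin hψ _))

theorem sm_rotS {ψ : X → ℝ} (hc : M.Sm co) (hs : M.Sm si) (hψ : M.Sm ψ) : M.Sm (rotS co si ψ) :=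
  (hs.mul (sm_cos hψ _)).add (hc.mul (sm_sin hψ _))

theorem rot_sq {ψ : X → ℝ} (h : co p ^ 2 + si p ^ 2 = 1) :
    rotC co si ψ p ^ 2 + rotS co si ψ p ^ 2 = 1 := by
  rw [rotC, rotS]
  linear_combination (co p ^ 2 + si p ^ 2) * cos_sq_add_sin_sq (2 * π * ψ p) + h

theorem dir_sq_le (M : Imm d ι X) (hu : M.Sm u) (f : X → ℝ) (p : X) :
    M.pre.dir (M.Xf u) f p ^ 2 ≤ M.pre.gam f f p := by
  let _ : MeasurableSpace X := ⊥
  have := gam_self_nonneg (M := M.graph u hu) f p
  rw [graph_pre, gS_gam] at this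
  linarith

/-- **CIRC** -/
theorem circ [T2Space X] [SecondCountableTopology X] [CompactSpace X] {F : X → ℝ} (hF : M.Sm F)
    (hc : M.Sm co) (hs : M.Sm si) (h : ∀ p, co p ^ 2 + si p ^ 2 = 1) {ε : ℝ} (hε : 0 < ε) :
    ∃ (M' : Imm d (Option (Option ι)) X) (F' ψ : X → ℝ), M'.ch = M.ch ∧ M.Sm F' ∧ M.Sm ψ ∧
      (∀ p a, M'.x p (some (some a)) = M.x p a) ∧
      (∀ f p, M'.pre.gam f f p ≤ M.pre.gam f f p) ∧ (∀ p, M.pre.EF F p - ε ≤ M'.pre.EF F' p) ∧
      ∀ p th, IsLift co si th p →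
        M'.pre.gam (fun q => th q + ψ q) (fun q => th q + ψ q) p ≤ ε := by
  let _ : MeasurableSpace X := ⊥
  obtain ⟨K, hK⟩ := isCompact_univ.exists_bound_of_continuousOn
    ((hc.gam hc).add (hs.gam hs)).continuous.continuousOn
  set T := 1 + 1 / ε with hT
  have hT1 : 1 ≤ T := by rw [hT]; linarith [one_div_pos.2 hε]
  have hT0 : 0 < T := by linarith
  set τ := ε / (T * (|K| + 1)) with hτ
  have hτ0 : 0 < τ := by positivity
  obtain ⟨w, hw, he⟩ := exists_tw_lin (fun a => hF.D a) hc hs h T hτ0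
  have hψ : M.Sm fun q => T⁻¹ * w q := (sm_const _).mul hw
  have hc' := sm_rotC hc hs hψ
  have hs' := sm_rotS hc hs hψ
  set R := T / (2 * π) with hR
  have hR0 : R ≠ 0 := by positivity
  choose θ hθ hL using exists_lift_sm hc hs h
  have hL' := fun p => (hL p).eventually (Eventually.of_forall fun q =>
    (hθ p).continuous.continuousAt)
  have hu : ∀ p, M.Sm fun q => w q + T * θ p q := fun p => hw.add ((sm_const T).mul (hθ p))
  have hl : ∀ p, ∀ᶠ q in 𝓝 p, cos (R⁻¹ * (w q + T * θ p q)) = rotC co si (fun q => T⁻¹ * w q) q ∧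
      sin (R⁻¹ * (w q + T * θ p q)) = rotS co si (fun q => T⁻¹ * w q) q := fun p =>
    ((hL p).rot hψ.continuous.continuousAt).2.mono fun q hq => by
      rwa [show R⁻¹ * (w q + T * θ p q) = 2 * π * (θ p q + T⁻¹ * w q) by rw [hR]; field_simp; ring]
  have hg := (sm_const 1).add ((sm_const (R ^ 2)).mul ((hc'.gam hc').add (hs'.gam hs')))
  have hg0 := fun q => add_pos_of_pos_of_nonneg one_pos (mul_nonneg (sq_nonneg R) (add_nonneg
    (gam_self_nonneg (M := M) (rotC co si fun q => T⁻¹ * w q) q)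
    (gam_self_nonneg (M := M) (rotS co si fun q => T⁻¹ * w q) q)))
  have hW := fun q => (sqrt_pos.2 (hg0 q)).ne'
  have hF' := hF.add (((hg.sqrt fun q => (hg0 q).ne').inv hW).log fun q => inv_ne_zero (hW q))
  refine ⟨curl M R hc' hs', _, _, rfl, hF', hψ, fun _ _ => rfl, fun f p => ?_, fun p => ?_,
    fun p th hth => ?_⟩
  · rw [curl_gam hc' hs' (hu p) hR0 (hl p)]
    exact gS_gam_le _ _ _ _
  · set u := fun q => w q + T * θ p q with hud
    have hu' : M.Sm u := hu p
    have e1 : (fun q => F q + log (√(1 + R ^ 2 * (M.pre.gam (rotC co si fun q => T⁻¹ * w q)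
        (rotC co si fun q => T⁻¹ * w q) q + M.pre.gam (rotS co si fun q => T⁻¹ * w q)
        (rotS co si fun q => T⁻¹ * w q) q)))⁻¹) =ᶠ[𝓝 p] fun q => F q + log (M.vv u q) := by
      filter_upwards [(hl p).eventually_nhds] with q hq
      rw [gam_circ (hu p) hq, ← mul_assoc, ← mul_pow, mul_inv_cancel₀ hR0, one_pow, one_mul]
      rfl
    have e2 : M.hF F u =ᶠ[𝓝 p] fun q => τ * u q - τ * T * θ p q := by
      filter_upwards [hL' p] with q hq
      rw [← QQ_grad, he q _ hq, hud]; ring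
    have e3 : M.pre.dir (M.Xf u) (M.hF F u) p =
        τ * (M.vv u p * M.pre.gam u u p) - τ * T * M.pre.dir (M.Xf u) (θ p) p := by
      rw [← dir_Xf]
      simp only [dir_apply, D_congr e2, D_sub (((sm_const τ).mul hu').diffAt p)
        (((sm_const (τ * T)).mul (hθ p)).diffAt p), D_const_mul _ (hu'.diffAt p),
        D_const_mul _ ((hθ p).diffAt p), Finset.mul_sum, ← Finset.sum_sub_distrib]
      exact Finset.sum_congr rfl fun a _ => by ring
    have e4 := gam_circ (R := (2 * π)⁻¹) (hθ p) (by simpa only [inv_inv] using (hL p).2)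
    have e5 := dir_sq_le M hu' (θ p) p
    have e6 : M.pre.gam (θ p) (θ p) p * 4 ≤ |K| := by
      have h1 := (le_abs_self _).trans ((hK p trivial).trans (le_abs_self K))
      rw [e4, inv_inv] at h1
      refine le_trans ?_ h1
      rw [mul_comm]
      exact mul_le_mul_of_nonneg_right (by nlinarith [pi_gt_three]) (gam_self_nonneg _ _)
    have e7 : 2 * M.pre.dir (M.Xf u) (θ p) p ≤ |K| + 1 := by
      nlinarith [sq_nonneg (2 * M.pre.dir (M.Xf u) (θ p) p - 1)]
    have e8 : τ * T * (|K| + 1) = ε := by rw [hτ]; field_simp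
    have e9 := mul_le_mul_of_nonneg_left e7 (mul_pos hτ0 hT0).le
    have e10 := mul_nonneg hτ0.le (mul_nonneg (M.vv_pos u p).le (gam_self_nonneg (M := M) u p))
    have e11 := div_nonneg (gam_self_nonneg (M := M.graph u (hu p)) (M.vv u) p)
      (sq_nonneg (M.vv u p))
    rw [curl_EF hc' hs' hu' hR0 (hl p) hF', ← graph_pre hu', EF_apply (M := M.graph u hu'),
      lap_congr e1, gam_congr e1 e1, ← EF_apply, graph_pre, Nk.EF_graph hF hu', Nk.gain, e3]
    rw [graph_pre] at e11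
    linarith [sq_nonneg (M.hF F u p), M.a2_nonneg u p]
  · obtain ⟨k, hk⟩ := hth.shift (hL p)
    have e1 : (fun q => th q + T⁻¹ * w q) =ᶠ[𝓝 p] fun q => T⁻¹ * (w q + T * θ p q) + k :=
      hk.mono fun q hq => by simp only [hq]; field_simp; ring
    have h1 : (M.graph _ (hu p)).Sm fun q => w q + T * θ p q := hu p
    have e2 := gS_gam_u M (fun q => w q + T * θ p q) p
    rw [gam_congr e1 e1, curl_gam hc' hs' (hu p) hR0 (hl p), ← graph_pre (hu p)]
    rw [← graph_pre (hu p), gam_apply] at e2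
    simp only [gam_apply, D_add_const, D_const_mul _ (h1.diffAt p), mul_mul_mul_comm T⁻¹,
      ← Finset.mul_sum, e2]
    have e3 : T⁻¹ ≤ ε := inv_le_of_inv_le₀ hε (by rw [hT, one_div]; linarith)
    have e4 : T⁻¹ ≤ 1 := inv_le_one_of_one_le₀ hT1
    have e5 := inv_pos.2 hT0
    nlinarith [sq_nonneg (M.vv (fun q => w q + T * θ p q) p), mul_pos e5 e5]

end Crest.Agent.N228.J

end
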