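import Crest.Agent.N228.J.Per
import Crest.Agent.N228.J.Fam

/-!
# Row 228, solver layer (helper41): the twisted equation `Q (w + σ) = Φ (c, w, 1 / W (w + σ))`

`σ` is a local primitive of a closed one-form, for example `T θ` with `θ` circle valued.
-/

set_option autoImplicit false
set_option linter.unusedSectionVars false
open Set Filter Topology Function
open scoped ContDiff
open Crest.Agent.N222

noncomputable section

namespace Crest.Agent.N228.J

variable {d : ℕ} {ι : Type} [Fintype ι] [DecidableEq ι] {X : Type} [TopologicalSpace X]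
  {P : Type} [NormedAddCommGroup P] [NormedSpace ℝ P] {Φ : P × ℝ × ℝ → ℝ} {C : Set P}
  {M : Imm d ι X} {b : ι → X → ℝ} {c : X → P}

/-- local primitives of a closed one-form -/
structure Coc (A : J.Atl d X) where
  V : X → Set X
  σ : X → X → ℝ
  op : ∀ p, IsOpen (V p)
  mem : ∀ p, p ∈ V p
  sm : ∀ p, A.SmOn (V p) (σ p)
  lc : ∀ p, ∀ q ∈ V p, ∃ k, σ p =ᶠ[𝓝 q] fun y => σ q y + k

/-- the shifted right hand side -/
def PhiT (Φ : P × ℝ × ℝ → ℝ) (z : (P × ℝ) × ℝ × ℝ) : ℝ := Φ (z.1.1, z.2.1 - z.1.2, z.2.2)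

theorem good_PhiT (hΦ : J.Good Φ univ C) : J.Good (PhiT Φ) univ {z | z.1 ∈ C} := by
  refine ⟨isOpen_univ, ordConnected_univ, ContDiff.contDiffOn ?_, fun c hc t _ v hv => ?_⟩
  · have h := hΦ.sm
    rw [univ_prod_univ, univ_prod_univ, contDiffOn_univ] at h
    exact h.comp (contDiff_fst.fst.prodMk ((contDiff_snd.fst.sub contDiff_fst.snd).prodMk
      contDiff_snd.snd))
  · have := deriv_comp_sub_const (fun s => Φ (c.1, s, v)) c.2 t
    simp only [PhiT]
    rw [this]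
    exact hΦ.pos _ hc _ trivial v hv

theorem QQ_shift {u w : X → ℝ} {k : ℝ} {q : X} (h : u =ᶠ[𝓝 q] fun y => w y + k) :
    QQ M b u q = QQ M b w q ∧ M.vv u q = M.vv w q := by
  let _ : MeasurableSpace X := ⊥
  exact ⟨by rw [QQ_congr h, QQ_add_const], by rw [Imm.vv_congr h, Imm.vv_add_const]⟩

theorem Sub.shift {σ1 σ2 v : X → ℝ} {k : ℝ} {q : X} (h : σ1 =ᶠ[𝓝 q] fun y => σ2 y + k)
    (H : Sub M b (PhiT Φ) (fun y => (c y, σ2 y)) (fun y => v y + σ2 y) q) :
    Sub M b (PhiT Φ) (fun y => (c y, σ1 y)) (fun y => v y + σ1 y) q := by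
  rintro φ ⟨U, hU, hq, hφ⟩ hm
  have h1 := H (fun y => φ y + -k) ⟨U, hU, hq, fun p => (hφ p).add contDiffOn_const⟩
    (hm.congr (h.mono fun y hy => by simp only [hy]; ring))
  obtain ⟨e1, e2⟩ := QQ_shift (M := M) (b := b) (EventuallyEq.refl (𝓝 q) fun y => φ y + -k)
  change Φ (c q, v q + σ2 q - σ2 q, M.vv _ q) ≤ QQ M b _ q at h1
  change Φ (c q, v q + σ1 q - σ1 q, M.vv _ q) ≤ QQ M b _ q
  rwa [e1, e2, add_sub_cancel_right, ← add_sub_cancel_right (v q) (σ1 q)] at h1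

theorem smOn_add {A : J.Atl d X} {U : Set X} {f g : X → ℝ} (hf : A.SmOn U f) (hg : A.SmOn U g) :
    A.SmOn U fun y => f y + g y := fun p => (hf p).add (hg p)

/-- **TW**, general form -/
theorem exists_tw [T2Space X] [FiniteDimensional ℝ P] (hb : ∀ a, M.Sm (b a))
    (hΦ : J.Good Φ univ C) (hc : M.Sm c) (hC : ∀ p, c p ∈ C) (Z : Coc M.atl) {s t : ℝ} (hst : s ≤ t)
    (h1 : ∀ p, Φ (c p, s, M.vv (Z.σ p) p) ≤ QQ M b (Z.σ p) p)
    (h2 : ∀ p, QQ M b (Z.σ p) p ≤ Φ (c p, t, M.vv (Z.σ p) p)) :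
    ∃ w, M.Sm w ∧ ∀ p, QQ M b (fun y => w y + Z.σ p y) p =
      Φ (c p, w p, M.vv (fun y => w y + Z.σ p y) p) ∧ s ≤ w p ∧ w p ≤ t := by
  have hJ := M.jop_on hb M.atl rfl
  let S : Set (X → ℝ) := {v | Continuous v ∧ (∀ q, Sub M b (PhiT Φ) (fun y => (c y, Z.σ q y))
    (fun y => v y + Z.σ q y) q) ∧ ∀ q, s ≤ v q ∧ v q ≤ t}
  have hN : ∀ (r : ℝ) p, ∀ q ∈ Z.V p, M.atl.SmN (fun y => r + Z.σ p y) q := fun r p q hq =>
    ⟨_, Z.op p, hq, smOn_add (fun _ => contDiffOn_const) (Z.sm p)⟩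
  have hQ : ∀ (r : ℝ) p, ∀ q ∈ Z.V p, QQ M b (fun y => r + Z.σ p y) q = QQ M b (Z.σ q) q ∧
      M.vv (fun y => r + Z.σ p y) q = M.vv (Z.σ q) q := fun r p q hq => by
    obtain ⟨k, hk⟩ := Z.lc p q hq
    exact QQ_shift (k := k + r) (hk.mono fun y hy => by simp only [hy]; ring)
  have h0 : (fun _ => s) ∈ S := ⟨continuous_const, fun q =>
    J.vsub_of_sm isOpen_univ hJ (mem_univ q) (hN s q q (Z.mem q)) (by
      change Φ (c q, s + Z.σ q q - Z.σ q q, M.vv _ q) ≤ QQ M b _ q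
      rw [(hQ s q q (Z.mem q)).1, (hQ s q q (Z.mem q)).2, add_sub_cancel_right]
      exact h1 q), fun _ => ⟨le_rfl, hst⟩⟩
  have hbd : ∀ q, BddAbove ((fun v => v q) '' S) := fun q =>
    ⟨t, by rintro _ ⟨v, hv, rfl⟩; exact (hv.2.2 q).2⟩
  let w : X → ℝ := fun q => sSup ((fun v => v q) '' S)
  have hw : ∀ q, IsLUB ((fun v => v q) '' S) (w q) := fun q => isLUB_csSup ⟨_, _, h0, rfl⟩ (hbd q)
  have key : ∀ p, J.Solves M.atl (M.jop b) (PhiT Φ) (fun y => (c y, Z.σ p y)) (Z.V p)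
      fun y => w y + Z.σ p y := fun p => by
    have hσ := (Z.sm p).continuousOn (Z.op p)
    refine J.perron2 (c := fun y => (c y, Z.σ p y)) (wm := fun y => s + Z.σ p y)
      (wp := fun y => t + Z.σ p y)
      (S := (fun v y => v y + Z.σ p y) '' S) (Z.op p) (hJ.mono (Z.op p) (subset_univ _))
      ((good_PhiT hΦ).mono (by rintro _ ⟨q, -, rfl⟩; exact hC q))
      (fun q => ((((M.smOn_univ (A := M.atl) rfl).2 hc).mono (subset_univ _)) q).prodMk (Z.sm p q))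
      (continuousOn_const.add hσ) (continuousOn_const.add hσ) (fun _ _ => ⟨trivial, trivial⟩)
      (fun q hq => J.vsup_of_sm isOpen_univ hJ (mem_univ q) (hN t p q hq) ?_) ?_ ⟨_, h0, rfl⟩ ?_ ?_
      fun q _ => ?_
    · change QQ M b _ q ≤ Φ (c q, t + Z.σ p q - Z.σ p q, M.vv _ q)
      rw [(hQ t p q hq).1, (hQ t p q hq).2, add_sub_cancel_right]
      exact h2 q
    · rintro _ ⟨v, hv, rfl⟩
      refine ⟨hv.1.continuousOn.add hσ, fun q hq => ?_, fun q _ => add_le_add_left (hv.2.2 q).1 _,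
        fun q _ => add_le_add_left (hv.2.2 q).2 _⟩
      obtain ⟨k, hk⟩ := Z.lc p q hq
      exact (hv.2.1 q).shift hk
    · rintro _ ⟨v, hv, rfl⟩ _ ⟨v', hv', rfl⟩
      refine ⟨fun y => max (v y) (v' y), ⟨hv.1.max hv'.1, fun q => ?_, fun q =>
        ⟨(hv.2.2 q).1.trans (le_max_left _ _), max_le (hv.2.2 q).2 (hv'.2.2 q).2⟩⟩,
        funext fun y => (max_add_add_right _ _ _).symm⟩
      exact ((hv.2.1 q).max (hv'.2.1 q)).congr
        (Eventually.of_forall fun y => max_add_add_right _ _ _)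
    · rintro _ ⟨v, hv, rfl⟩ v' hv' ⟨K, hK, hKc, H⟩
      have he : ∀ q, q ∉ Z.V p → v =ᶠ[𝓝 q] fun y => v' y - Z.σ p y := fun q hq => by
        filter_upwards [hKc.isOpen_compl.mem_nhds fun h => hq (hK h)] with y hy
        rw [H y hy, add_sub_cancel_right]
      refine ⟨fun y => v' y - Z.σ p y, ⟨continuous_iff_continuousAt.2 fun q => ?_, fun q => ?_,
        fun q => ?_⟩, funext fun y => sub_add_cancel _ _⟩ <;> by_cases hq : q ∈ Z.V p
      · exact (hv'.cont.sub hσ).continuousAt ((Z.op p).mem_nhds hq)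
      · exact hv.1.continuousAt.congr (he q hq)
      · obtain ⟨k, hk⟩ := Z.lc p q hq
        refine Sub.shift (σ2 := Z.σ p) (k := -k) (hk.mono fun y hy => by simp only [hy]; ring) ?_
        exact Sub.congr (hv'.sub q hq) (Eventually.of_forall fun y => (sub_add_cancel _ _).symm)
      · exact (hv.2.1 q).congr ((he q hq).mono fun y hy => by simp only [hy])
      · exact ⟨le_sub_iff_add_le.2 (hv'.lo q hq), sub_le_iff_le_add.2 (hv'.hi q hq)⟩
      · simpa only [(he q hq).eq_of_nhds] using hv.2.2 q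
    · refine ⟨?_, fun r hr => ?_⟩
      · rintro _ ⟨_, ⟨v, hv, rfl⟩, rfl⟩
        exact add_le_add_left ((hw q).1 ⟨v, hv, rfl⟩) _
      · refine le_sub_iff_add_le.1 ((hw q).2 ?_)
        rintro _ ⟨v, hv, rfl⟩
        exact le_sub_iff_add_le.2 (hr ⟨_, ⟨v, hv, rfl⟩, rfl⟩)
  refine ⟨w, (M.smOn_univ (A := M.atl) rfl).1 (J.Atl.smOn_of_local fun p _ => ⟨_, Z.op p, Z.mem p,
    fun q => (((key p).1 q).sub (Z.sm p q)).congr fun y _ => (add_sub_cancel_right _ _).symm⟩),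
    fun p => ⟨?_, (hw p).1 ⟨_, h0, rfl⟩, (hw p).2 (by rintro _ ⟨v, hv, rfl⟩; exact (hv.2.2 p).2)⟩⟩
  have := (key p).2 p (Z.mem p)
  change QQ M b _ p = Φ (c p, w p + Z.σ p p - Z.σ p p, M.vv _ p) at this
  rwa [add_sub_cancel_right] at this

/-- the twisted operator at `w = 0` is bounded -/
theorem Coc.bound [CompactSpace X] (hb : ∀ a, M.Sm (b a)) (Z : Coc M.atl) :
    ∃ K, ∀ p, |QQ M b (Z.σ p) p| ≤ K := by
  have h : Continuous fun p => QQ M b (Z.σ p) p := continuous_iff_continuousAt.2 fun p => by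
    have hF := Fm.fixed (A := M.atl) (Λ := Unit) M rfl (Z.op p)
    have h1 := JC.fixed (Λ := Unit) (Z.op p) (Z.sm p)
    have h2 := ((hF.pj.hb (Y := fun _ => b) (fun a => JC.of_sm rfl (Z.op p) (hb a)) h1
      (hF.vv h1)).smOn ()).continuousOn (Z.op p)
    refine (h2.continuousAt ((Z.op p).mem_nhds (Z.mem p))).congr ?_
    filter_upwards [(Z.op p).mem_nhds (Z.mem p)] with q hq
    obtain ⟨k, hk⟩ := Z.lc p q hq
    exact (QQ_shift hk).1
  obtain ⟨K, hK⟩ := isCompact_univ.exists_bound_of_continuousOn h.continuousOn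
  exact ⟨K, fun p => hK p trivial⟩

/-! ### circle valued functions -/

open Real

/-- `th` lifts the circle valued function `(co, si)` near `p` -/
def IsLift (co si th : X → ℝ) (p : X) : Prop :=
  ContinuousAt th p ∧ ∀ᶠ q in 𝓝 p, cos (2 * π * th q) = co q ∧ sin (2 * π * th q) = si q

variable {co si th th' : X → ℝ} {p : X}

/-- two lifts differ locally by an integer -/
theorem IsLift.shift (h : IsLift co si th p) (h' : IsLift co si th' p) :
    ∃ k : ℤ, th =ᶠ[𝓝 p] fun y => th' y + k := by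
  have h1 : ∀ᶠ q in 𝓝 p, ∃ k : ℤ, th q - th' q = k := by
    filter_upwards [h.2, h'.2] with q hq hq'
    have : cos (2 * π * th q - 2 * π * th' q) = 1 := by
      rw [cos_sub, hq'.1, hq'.2, ← hq.1, ← hq.2, ← sq, ← sq, cos_sq_add_sin_sq]
    obtain ⟨k, hk⟩ := (cos_eq_one_iff _).1 this
    exact ⟨k, mul_left_cancel₀ two_pi_pos.ne' (by linarith)⟩
  obtain ⟨k, hk⟩ := h1.self_of_nhds
  refine ⟨k, ?_⟩
  filter_upwards [h1, Metric.tendsto_nhds.1 (h.1.sub h'.1) 1 one_pos] with q ⟨m, hm⟩ hq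
  rw [Real.dist_eq, Pi.sub_apply, Pi.sub_apply, hm, hk, ← Int.cast_sub, ← Int.cast_abs, ← Int.cast_one, Int.cast_lt,
    Int.abs_lt_one_iff, sub_eq_zero] at hq
  rw [← hq]; linarith

/-- smooth local lifts exist -/
theorem exists_lift {A : J.Atl d X} (hc : A.SmOn univ co) (hs : A.SmOn univ si)
    (h : ∀ p, co p ^ 2 + si p ^ 2 = 1) (p : X) : ∃ V th, IsOpen V ∧ p ∈ V ∧ A.SmOn V th ∧
      ∀ q ∈ V, cos (2 * π * th q) = co q ∧ sin (2 * π * th q) = si q := by
  obtain ⟨α, h1, h2⟩ : ∃ α, cos α = co p ∧ sin α = si p := by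
    have hn : ‖(⟨co p, si p⟩ : ℂ)‖ = 1 := by
      rw [Complex.norm_eq_sqrt_sq_add_sq, h p, sqrt_one]
    refine ⟨Complex.arg ⟨co p, si p⟩, ?_, ?_⟩
    · rw [Complex.cos_arg (norm_ne_zero_iff.1 (by rw [hn]; exact one_ne_zero)), hn, div_one]
    · rw [Complex.sin_arg, hn, div_one]
  have hcc := continuousOn_univ.1 (hc.continuousOn isOpen_univ)
  have hsc := continuousOn_univ.1 (hs.continuousOn isOpen_univ)
  have e : ∀ q, (si q * co p - co q * si p) ^ 2 = 1 - (co q * co p + si q * si p) ^ 2 := fun q => by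
    have : (co q ^ 2 + si q ^ 2) * (co p ^ 2 + si p ^ 2) = 1 := by rw [h, h, one_mul]
    linarith
  have e2 : ∀ q, 0 < co q * co p + si q * si p → |si q * co p - co q * si p| < 1 := fun q hq => by
    rw [← sq_lt_one_iff_abs_lt_one, e]; nlinarith
  refine ⟨{q | 0 < co q * co p + si q * si p},
    fun q => (α + arcsin (si q * co p - co q * si p)) / (2 * π),
    isOpen_lt continuous_const (by fun_prop), by simp only [mem_ofPred_eq]; nlinarith [h p],
    fun r y hy => ?_, fun q hq => ?_⟩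
  · have h3 := abs_lt.1 (e2 _ hy.2)
    refine ContDiffWithinAt.div_const (contDiffWithinAt_const.add ?_) _
    exact ContDiffAt.comp_contDiffWithinAt (g := arcsin) y (contDiffAt_arcsin h3.1.ne' h3.2.ne)
      ((((hs r y ⟨hy.1, trivial⟩).mul contDiffWithinAt_const).sub
        ((hc r y ⟨hy.1, trivial⟩).mul contDiffWithinAt_const)).mono (A.tg_mono (subset_univ _) r))
  · have h3 := abs_lt.1 (e2 _ hq)
    rw [mul_div_cancel₀ _ two_pi_pos.ne', cos_add, sin_add, sin_arcsin h3.1.le h3.2.le, cos_arcsin,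
      e, sub_sub_cancel, sqrt_sq (le_of_lt hq), h1, h2]
    constructor
    · linear_combination co q * h p
    · linear_combination si q * h p

/-- the cocycle of `T θ` -/
theorem exists_coc {A : J.Atl d X} (hc : A.SmOn univ co) (hs : A.SmOn univ si)
    (h : ∀ p, co p ^ 2 + si p ^ 2 = 1) (T : ℝ) : ∃ Z : Coc A, ∀ p th, IsLift co si th p →
      ∃ k, (fun y => T * th y) =ᶠ[𝓝 p] fun y => Z.σ p y + k := by
  choose V θ h1 h2 h3 h4 using exists_lift hc hs h
  have hL : ∀ p, ∀ q ∈ V p, IsLift co si (θ p) q := fun p q hq =>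
    ⟨((h3 p).continuousOn (h1 p)).continuousAt ((h1 p).mem_nhds hq),
      mem_of_superset ((h1 p).mem_nhds hq) (h4 p)⟩
  have hk : ∀ p th, IsLift co si th p → ∃ k, (fun y => T * th y) =ᶠ[𝓝 p]
      fun y => T * θ p y + k := fun p th hth => by
    obtain ⟨k, hk⟩ := hth.shift (hL p p (h2 p))
    exact ⟨T * k, hk.mono fun y hy => by simp only [hy]; ring⟩
  exact ⟨⟨V, fun p y => T * θ p y, h1, h2, fun p q => contDiffOn_const.mul (h3 p q),
    fun p q hq => hk q _ (hL p q hq)⟩, hk⟩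

/-- **TW** for a circle valued `θ = (co, si)` on a compact manifold: `u = w + T θ` -/
theorem exists_tw_circ [T2Space X] [CompactSpace X] [FiniteDimensional ℝ P] (hb : ∀ a, M.Sm (b a))
    (hΦ : J.Good Φ univ C) (hc : M.Sm c) (hC : ∀ p, c p ∈ C) (hco : M.Sm co) (hsi : M.Sm si)
    (h : ∀ p, co p ^ 2 + si p ^ 2 = 1) (T : ℝ)
    (hK : ∀ K, ∃ s t, s ≤ t ∧ ∀ p, ∀ v ∈ Icc (0 : ℝ) 1, Φ (c p, s, v) ≤ -K ∧ K ≤ Φ (c p, t, v)) :
    ∃ w, M.Sm w ∧ ∀ p th, IsLift co si th p → QQ M b (fun y => w y + T * th y) p =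
      Φ (c p, w p, M.vv (fun y => w y + T * th y) p) := by
  obtain ⟨Z, hZ⟩ := exists_coc ((M.smOn_univ (A := M.atl) rfl).2 hco)
    ((M.smOn_univ (A := M.atl) rfl).2 hsi) h T
  obtain ⟨K, H⟩ := Z.bound hb
  obtain ⟨s, t, hst, H'⟩ := hK K
  obtain ⟨w, hw, h1⟩ := exists_tw hb hΦ hc hC Z hst
    (fun p => (H' p _ (vv_mem M _ p)).1.trans (abs_le.1 (H p)).1)
    fun p => (abs_le.1 (H p)).2.trans (H' p _ (vv_mem M _ p)).2
  refine ⟨w, hw, fun p th hth => ?_⟩
  obtain ⟨k, hk⟩ := hZ p th hth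
  obtain ⟨e1, e2⟩ := QQ_shift (M := M) (b := b) (u := fun y => w y + T * th y)
    (w := fun y => w y + Z.σ p y) (k := k) (hk.mono fun y hy => by simp only [hy]; ring)
  rw [e1, e2, (h1 p).1]

/-- **TW**, linear right hand side: `Q (w + T θ) = τ w` -/
theorem exists_tw_lin [T2Space X] [CompactSpace X] (hb : ∀ a, M.Sm (b a)) (hco : M.Sm co)
    (hsi : M.Sm si) (h : ∀ p, co p ^ 2 + si p ^ 2 = 1) (T : ℝ) {τ : ℝ} (hτ : 0 < τ) :
    ∃ w, M.Sm w ∧ ∀ p th, IsLift co si th p → QQ M b (fun y => w y + T * th y) p = τ * w p := by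
  refine exists_tw_circ (Φ := fun z : ℝ × ℝ × ℝ => τ * z.2.1) (C := univ) (c := fun _ => 0) hb
    ⟨isOpen_univ, ordConnected_univ, by fun_prop, fun _ _ t _ _ _ => by simpa using hτ⟩
    (Imm.sm_const 0) (fun _ => trivial) hco hsi h T fun K => ⟨-(|K| / τ), |K| / τ, ?_, fun _ _ _ => ?_⟩
  · have : 0 ≤ |K| / τ := by positivity
    linarith
  · simp only [mul_neg, mul_div_cancel₀ _ hτ.ne', neg_le_neg_iff, and_self]
    exact le_abs_self K

end Crest.Agent.N228.J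

end
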