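import Crest.Agent.N228.J.Sol
import Crest.Agent.N222.B.Seq
import Crest.Agent.N222.F.Bump

/-!
# Row 228, solver layer (helper41): walls

`wall_lo`, `wall_hi` : equation free local barriers.  `wall_le`, `wall_ge` : a stiff zone pins the
solution.
-/

set_option autoImplicit false
set_option linter.unusedSectionVars false
open Set Filter Topology Function Metric
open scoped ContDiff
open Crest.Agent.N222

noncomputable section

namespace Crest.Agent.N228.J

variable {d : ℕ} {ι : Type} [Fintype ι] [DecidableEq ι] {X : Type} [TopologicalSpace X]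
  [T2Space X] [SecondCountableTopology X] {M : Imm d ι X} {b : ι → X → ℝ}

/-- a cap function around a point -/
theorem exists_cap (M : Imm d ι X) {N : Set X} (hN : IsOpen N) {p0 : X} (hp : p0 ∈ N) :
    ∃ (σ : X → ℝ) (K : Set X), M.Sm σ ∧ IsCompact K ∧ K ⊆ N ∧ p0 ∈ K ∧ σ p0 = 1 ∧
      ∀ q ∈ K, σ q ≤ 1 ∧ (0 < σ q → K ∈ 𝓝 q) ∧ 0 < σ q ^ 2 + M.pre.gam σ σ q := by
  set e := M.ch p0 with he
  have hc := M.isChart p0
  have ho : IsOpen (e.target ∩ e.symm ⁻¹' N) := e.isOpen_inter_preimage_symm hN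
  obtain ⟨r, hr, hsub⟩ := Metric.nhds_basis_closedBall.mem_iff.1
    (ho.mem_nhds (⟨e.map_source (M.mem p0), by
      rw [mem_preimage, e.left_inv (M.mem p0)]; exact hp⟩ : e p0 ∈ e.target ∩ e.symm ⁻¹' N))
  set g : E (Fin d) → ℝ := fun z => 1 - ‖z - e p0‖ ^ 2 / r ^ 2 with hg
  have sg : ContDiff ℝ ∞ g :=
    contDiff_const.sub (((contDiff_id.sub contDiff_const).norm_sq ℝ).div_const _)
  have hK : IsCompact (e.symm '' closedBall (e p0) r) :=
    (isCompact_closedBall _ _).image_of_continuousOn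
      (e.continuousOn_symm.mono fun z hz => (hsub hz).1)
  have hKs : e.symm '' closedBall (e p0) r ⊆ e.source := by
    rintro _ ⟨z, hz, rfl⟩; exact e.map_target (hsub hz).1
  obtain ⟨σ, sσ, -, -, hσ⟩ := ((Imm.smOn_chart hc).comp (g := g) fun _ _ => sg.contDiffAt).exists_sm
    e.open_source hK hKs
  have hσ' : ∀ q ∈ e.symm '' closedBall (e p0) r, σ =ᶠ[𝓝 q] fun p => g (e p) := fun q hq =>
    hσ.filter_mono (nhds_le_nhdsSet hq)
  have hp0 : p0 ∈ e.symm '' closedBall (e p0) r :=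
    ⟨_, mem_closedBall_self hr.le, e.left_inv (M.mem p0)⟩
  refine ⟨σ, _, sσ, hK, ?_, hp0, ?_, ?_⟩
  · rintro _ ⟨z, hz, rfl⟩; exact (hsub hz).2
  · rw [(hσ' _ hp0).eq_of_nhds]; simp [hg]
  · intro q hq
    have hqs := hKs hq
    have e1 : σ q = 1 - ‖e q - e p0‖ ^ 2 / r ^ 2 := (hσ' q hq).eq_of_nhds
    refine ⟨by rw [e1]; exact sub_le_self _ (by positivity), fun h => ?_, ?_⟩
    · have h1 : e q ∈ ball (e p0) r := by
        rw [e1, sub_pos, div_lt_one (by positivity)] at h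
        exact mem_ball_iff_norm.2 (lt_of_pow_lt_pow_left₀ 2 hr.le h)
      filter_upwards [e.open_source.mem_nhds hqs,
        (e.continuousAt hqs).eventually (isOpen_ball.mem_nhds h1)] with y hy hy'
      exact ⟨e y, ball_subset_closedBall hy', e.left_inv hy⟩
    · rcases eq_or_ne (σ q) 0 with h0 | h0
      · refine add_pos_of_nonneg_of_pos (sq_nonneg _)
          ((Imm.gam_self_nonneg σ q).lt_of_ne fun h => ?_)
        have h2 : M.td σ q = 0 := by
          rw [Imm.gam_self_eq, eq_comm, pow_eq_zero_iff two_ne_zero, ← Imm.norm_td] at h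
          exact norm_eq_zero.1 h
        have h3 := Imm.fderiv_chart σ hc hqs
        have h4 : σ ∘ e.symm =ᶠ[𝓝 (e q)] g := by
          filter_upwards [symm_eventuallyEq hqs (hσ' q hq),
            e.open_target.mem_nhds (e.map_source hqs)] with z hz hz'
          rw [hz, comp_apply, e.right_inv hz']
        have h5 : HasFDerivAt g (-((r ^ 2)⁻¹ • (2 : ℕ) • (innerSL ℝ (e q - e p0)).comp
            (ContinuousLinearMap.id ℝ _))) (e q) := by
          have := ((((hasFDerivAt_id (e q)).sub_const (e p0)).norm_sq).const_mul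
            (r ^ 2)⁻¹).const_sub 1
          refine this.congr_of_eventuallyEq (Eventually.of_forall fun z => ?_)
          simp only [hg, id, div_eq_inv_mul]
        rw [h4.fderiv_eq, h5.fderiv, h2, ContinuousLinearMap.zero_comp] at h3
        have h6 := congrArg (fun T : E (Fin d) →L[ℝ] ℝ => T (e q - e p0)) h3
        simp only [neg_apply, smul_apply, ContinuousLinearMap.comp_apply,
          ContinuousLinearMap.id_apply, innerSL_apply_apply, real_inner_self_eq_norm_sq,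
          zero_apply, smul_eq_mul, nsmul_eq_mul, neg_eq_zero, mul_eq_zero, inv_eq_zero] at h6
        have h7 : ‖e q - e p0‖ ^ 2 = 0 := by
          rcases h6 with h | h | h
          · exact absurd h (by positivity)
          · norm_num at h
          · exact h
        rw [e1, h7] at h0
        simp at h0
      · exact add_pos_of_pos_of_nonneg (by positivity) (Imm.gam_self_nonneg σ q)

theorem wall_real {r s g G v m K L D : ℝ} (hr : 0 < r) (hr1 : r ≤ 1) (hs : 0 < s) (hv : 0 < v)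
    (hv1 : v ≤ 1) (hm : 0 < m) (hK : 0 ≤ K) (h1 : m ^ 2 ≤ s ^ 2 + G)
    (h2 : r ^ 2 * G = s ^ 2 * g) (h3 : v ^ 2 * (1 + g) = 1) (h4 : -K ≤ L)
    (h5 : r ^ 2 * v * L ≤ r * s * D + s * (v * (1 - v ^ 2))) : -(K / m + 1 / r) ≤ D := by
  have a1 : (r * v * m) ^ 2 ≤ s ^ 2 := by
    have b1 : r ^ 2 * s ^ 2 ≤ s ^ 2 := mul_le_of_le_one_left (sq_nonneg _) (pow_le_one₀ hr.le hr1)
    have b2 : r ^ 2 * m ^ 2 ≤ s ^ 2 * (1 + g) := by
      nlinarith [mul_le_mul_of_nonneg_left h1 (sq_nonneg r)]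
    calc (r * v * m) ^ 2 = v ^ 2 * (r ^ 2 * m ^ 2) := by ring
      _ ≤ v ^ 2 * (s ^ 2 * (1 + g)) := mul_le_mul_of_nonneg_left b2 (sq_nonneg v)
      _ = s ^ 2 := by linear_combination s ^ 2 * h3
  have a2 : r * v * m ≤ s := (abs_le_of_sq_le_sq' a1 hs.le).2
  have a3 : v * (1 - v ^ 2) ≤ 1 := by nlinarith [mul_pos hv (pow_pos hv 2)]
  have a4 : r * v * K ≤ s * (K / m) := by
    rw [mul_div_assoc', le_div_iff₀ hm]
    nlinarith [mul_le_mul_of_nonneg_right a2 hK]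
  refine le_of_mul_le_mul_left ?_ (mul_pos hr hs)
  have a5 := mul_le_mul_of_nonneg_left h4 (mul_nonneg (sq_nonneg r) hv.le)
  have a6 := mul_le_mul_of_nonneg_left a3 hs.le
  have a7 := mul_le_mul_of_nonneg_left a4 hr.le
  have a8 : r * s * (1 / r) = s := by field_simp
  nlinarith

theorem wall_pt (hb : ∀ a, M.Sm (b a)) {N : Set X} (hN : IsOpen N) {p0 : X} (hp : p0 ∈ N) {ε : ℝ}
    (hε : 0 < ε) : ∃ N' ∈ 𝓝 p0, ∃ C : ℝ, ∀ u, M.Sm u → ∀ p ∈ N',
      ∃ q ∈ N, u q ≤ u p + ε ∧ -C ≤ QQ M b u q := by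
  let _ : MeasurableSpace X := ⊥
  obtain ⟨σ, K, sσ, hK, hKN, hp0, h1, H⟩ := exists_cap M hN hp
  obtain ⟨m, hm, Hm⟩ := hK.exists_forall_le' (f := fun q => σ q ^ 2 + M.pre.gam σ σ q)
    ((sσ.pow 2).add (sσ.gam sσ)).continuous.continuousOn (a := 0) fun q hq => (H q hq).2.2
  obtain ⟨B, hB⟩ := hK.exists_bound_of_continuousOn
    (f := fun q => ((fun k : ι × ι => M.pre.hess σ k.1 k.2 q), fun a => b a q))
    ((continuous_pi fun k : ι × ι => (sσ.hess k.1 k.2).continuous).prodMk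
      (continuous_pi fun a => (hb a).continuous)).continuousOn
  have hB0 : 0 ≤ B := (norm_nonneg _).trans (hB p0 hp0)
  set r := min 1 ε with hr
  have hr0 : 0 < r := lt_min one_pos hε
  refine ⟨K ∩ {p | 1 / 2 < σ p}, inter_mem ((H p0 hp0).2.1 (by rw [h1]; exact one_pos))
    ((isOpen_lt continuous_const sσ.continuous).mem_nhds (by rw [mem_ofPred_eq, h1]; norm_num)),
    (Fintype.card ι * B + Fintype.card ι * (Fintype.card ι * B)) / √m + 1 / r + Fintype.card ι * B,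
    fun u hu p hp => ?_⟩
  obtain ⟨q, hq, hmax⟩ := hK.exists_isMaxOn ⟨p, hp.1⟩
    (sσ.mul ((Imm.sm_const (-r⁻¹)).mul hu).exp).continuous.continuousOn
  have h2 : σ p * Real.exp (-r⁻¹ * u p) ≤ σ q * Real.exp (-r⁻¹ * u q) := hmax hp.1
  have h3 : 1 / 2 * Real.exp (-r⁻¹ * u p) ≤ σ q * Real.exp (-r⁻¹ * u q) :=
    (mul_le_mul_of_nonneg_right (le_of_lt hp.2) (Real.exp_pos _).le).trans h2
  have hs : 0 < σ q := (mul_pos_iff_of_pos_right (Real.exp_pos _)).1
    ((mul_pos one_half_pos (Real.exp_pos _)).trans_le h3)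
  obtain ⟨c1, c2⟩ := Sq.max_cond sσ hu hr0 (hmax.isLocalMax ((H q hq).2.1 hs))
  refine ⟨q, hKN hq, ?_, ?_⟩
  · have a1 : Real.exp (-1) ≤ 1 / 2 := by
      rw [Real.exp_neg, one_div]
      exact inv_anti₀ two_pos (by linarith [Real.add_one_le_exp (1 : ℝ)])
    have a2 : Real.exp (-1 + -r⁻¹ * u p) ≤ Real.exp (-r⁻¹ * u q) := by
      rw [Real.exp_add]
      exact ((mul_le_mul_of_nonneg_right a1 (Real.exp_pos _).le).trans h3).trans
        (mul_le_of_le_one_left (Real.exp_pos _).le (H q hq).1)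
    have a3 := mul_le_mul_of_nonneg_left (Real.exp_le_exp.1 a2) hr0.le
    have a4 : r * r⁻¹ = 1 := mul_inv_cancel₀ hr0.ne'
    have a5 : r ≤ ε := min_le_right _ _
    have a6 : r * (-1 + -r⁻¹ * u p) = -r - u p := by linear_combination (-u p) * a4
    have a7 : r * (-r⁻¹ * u q) = -u q := by linear_combination (-u q) * a4
    linarith
  · have b1 : ∀ a c, |M.pre.hess σ a c q| ≤ B := fun a c =>
      (norm_le_pi_norm (fun k : ι × ι => M.pre.hess σ k.1 k.2 q) (a, c)).trans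
        ((norm_fst_le _).trans (hB q hq))
    have b2 : ∀ a, |b a q| ≤ B := fun a =>
      (norm_le_pi_norm (fun a => b a q) a).trans ((norm_snd_le _).trans (hB q hq))
    have b3 : r ^ 2 * M.pre.gam σ σ q = σ q ^ 2 * M.pre.gam u u q := by
      rw [Imm.gam_apply, Imm.gam_apply, Finset.mul_sum, Finset.mul_sum]
      refine Finset.sum_congr rfl fun a _ => ?_
      linear_combination (r * M.pre.D a σ q + σ q * M.pre.D a u q) * c1 a
    have b4 := wall_real hr0 (min_le_left _ _) hs (M.vv_pos u q) (M.vv_le_one u q)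
      (Real.sqrt_pos.2 hm) (by positivity)
      ((Real.sq_sqrt hm.le).le.trans (Hm q hq)) b3 (M.vv_sq u q) (Sq.L_ge b1 u) c2
    have b5 : ∑ a, -(M.Xf u a q * b a q) ≤ Fintype.card ι * B := by
      refine (Finset.sum_le_card_nsmul _ _ B fun a _ => ?_).trans (by simp)
      refine (neg_le_abs _).trans ?_
      rw [abs_mul]
      exact (mul_le_of_le_one_left (abs_nonneg _) (Sq.abs_Xf_le M u a q)).trans (b2 a)
    rw [Finset.sum_neg_distrib] at b5
    rw [QQ_apply]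
    linarith

/-- **WALL**, from below -/
theorem wall_lo (hb : ∀ a, M.Sm (b a)) {K N : Set X} (hK : IsCompact K) (hN : IsOpen N)
    (hKN : K ⊆ N) {ε : ℝ} (hε : 0 < ε) : ∃ C : ℝ, 0 < C ∧ ∀ u, M.Sm u → ∀ p ∈ K,
      ∃ q ∈ N, u q ≤ u p + ε ∧ -C ≤ QQ M b u q := by
  refine hK.induction_on (p := fun s => ∃ C : ℝ, 0 < C ∧ ∀ u, M.Sm u → ∀ p ∈ s,
    ∃ q ∈ N, u q ≤ u p + ε ∧ -C ≤ QQ M b u q) ⟨1, one_pos, fun _ _ _ h => h.elim⟩
    (fun s t hst ⟨C, h0, h⟩ => ⟨C, h0, fun u hu p hp => h u hu p (hst hp)⟩)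
    (fun s t ⟨C, h0, h⟩ ⟨C', _, h'⟩ => ⟨max C C', lt_max_of_lt_left h0, fun u hu p hp => ?_⟩)
    fun p hp => ?_
  · rcases hp with hp | hp
    · obtain ⟨q, hq, h1, h2⟩ := h u hu p hp
      exact ⟨q, hq, h1, (neg_le_neg (le_max_left _ _)).trans h2⟩
    · obtain ⟨q, hq, h1, h2⟩ := h' u hu p hp
      exact ⟨q, hq, h1, (neg_le_neg (le_max_right _ _)).trans h2⟩
  · obtain ⟨N', hN', C, h⟩ := wall_pt hb hN (hKN hp) hε
    refine ⟨N', mem_nhdsWithin_of_mem_nhds hN', max 1 C, lt_max_of_lt_left one_pos,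
      fun u hu p hp => ?_⟩
    obtain ⟨q, hq, h1, h2⟩ := h u hu p hp
    exact ⟨q, hq, h1, (neg_le_neg (le_max_right _ _)).trans h2⟩

/-- **WALL**, from above -/
theorem wall_hi (hb : ∀ a, M.Sm (b a)) {K N : Set X} (hK : IsCompact K) (hN : IsOpen N)
    (hKN : K ⊆ N) {ε : ℝ} (hε : 0 < ε) : ∃ C : ℝ, 0 < C ∧ ∀ u, M.Sm u → ∀ p ∈ K,
      ∃ q ∈ N, u p ≤ u q + ε ∧ QQ M b u q ≤ C := by
  obtain ⟨C, h0, h⟩ := wall_lo hb hK hN hKN hε
  refine ⟨C, h0, fun u hu p hp => ?_⟩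
  obtain ⟨q, hq, h1, h2⟩ := h _ hu.neg p hp
  rw [QQ_neg] at h2
  exact ⟨q, hq, by linarith, by linarith⟩

/-- a stiff zone bounds the function from above -/
theorem wall_le (hb : ∀ a, M.Sm (b a)) {K N : Set X} (hK : IsCompact K) (hN : IsOpen N)
    (hKN : K ⊆ N) {ε : ℝ} (hε : 0 < ε) : ∃ C : ℝ, 0 < C ∧ ∀ (u : X → ℝ) (t : ℝ), M.Sm u →
      (∀ q ∈ N, t ≤ u q → C < QQ M b u q) → ∀ p ∈ K, u p < t + ε := by
  obtain ⟨C, h0, h⟩ := wall_hi hb hK hN hKN hε
  refine ⟨C, h0, fun u t hu H p hp => ?_⟩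
  obtain ⟨q, hq, h1, h2⟩ := h u hu p hp
  have : u q < t := lt_of_not_ge fun h3 => absurd (H q hq h3) (not_lt.2 h2)
  linarith

/-- a stiff zone bounds the function from below -/
theorem wall_ge (hb : ∀ a, M.Sm (b a)) {K N : Set X} (hK : IsCompact K) (hN : IsOpen N)
    (hKN : K ⊆ N) {ε : ℝ} (hε : 0 < ε) : ∃ C : ℝ, 0 < C ∧ ∀ (u : X → ℝ) (t : ℝ), M.Sm u →
      (∀ q ∈ N, u q ≤ t → QQ M b u q < -C) → ∀ p ∈ K, t - ε < u p := by
  obtain ⟨C, h0, h⟩ := wall_lo hb hK hN hKN hε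
  refine ⟨C, h0, fun u t hu H p hp => ?_⟩
  obtain ⟨q, hq, h1, h2⟩ := h u hu p hp
  have : t < u q := lt_of_not_ge fun h3 => absurd (H q hq h3) (not_lt.2 h2)
  linarith

end Crest.Agent.N228.J

end
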